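import Mathlib

/-!
# P238: edit distance, distortion, the `ℓ₁` distortion of edit distance on `{0,1}ⁿ`
-/

namespace Vale.Agent.P238

open scoped ENNReal

/-- One single-symbol operation (insertion, deletion or substitution). -/
inductive EditStep {α : Type*} : List α → List α → Prop
  | ins (u v : List α) (a : α) : EditStep (u ++ v) (u ++ a :: v)
  | del (u v : List α) (a : α) : EditStep (u ++ a :: v) (u ++ v)
  | sub (u v : List α) (a b : α) : EditStep (u ++ a :: v) (u ++ b :: v)

/-- `EditPath k x y`: the word `y` is obtained from `x` by exactly `k` single-symbol operations. -/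
def EditPath {α : Type*} : ℕ → List α → List α → Prop
  | 0, x, y => x = y
  | k + 1, x, y => ∃ z, EditStep x z ∧ EditPath k z y

/-- The edit distance: the least number of single-symbol insertions, deletions and substitutions
transforming `x` into `y`. -/
noncomputable def ED {α : Type*} (x y : List α) : ℕ := sInf {k | EditPath k x y}

/-- Binary words of length `n`. -/
abbrev Word (n : ℕ) : Type := {w : List Bool // w.length = n}

/-- The space `ℓ₁` of absolutely summable real sequences. -/
abbrev Ell1 : Type := lp (fun _ : ℕ => ℝ) 1

/-- The distortion of a map `f` from `({0,1}ⁿ, ED)` to `ℓ₁` (expansion times contraction). -/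
noncomputable def distortion (n : ℕ) (f : Word n → Ell1) : ℝ≥0∞ :=
  (⨆ (x : Word n) (y : Word n) (_ : x ≠ y), ENNReal.ofReal (‖f x - f y‖ / ED x.1 y.1)) *
    (⨆ (x : Word n) (y : Word n) (_ : x ≠ y), ENNReal.ofReal (ED x.1 y.1 / ‖f x - f y‖))

/-- `c₁({0,1}ⁿ, ED)`: the infimum of the distortion over injective maps into `ℓ₁`. -/
noncomputable def c1 (n : ℕ) : ℝ≥0∞ :=
  ⨅ (f : Word n → Ell1) (_ : Function.Injective f), distortion n f

end Vale.Agent.P238
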