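import Vale.Agent.P238.Level
import Vale.Agent.P238.Defs

/-!
# P238: basic objects.  The cube `{0,1}^A` is the set of subsets of `A = range (2^N)`.
-/

namespace Vale.Agent.P238

open Finset

/-- `E |f x - f (π x)|` over uniform `x ⊆ A` -/
noncomputable def D1 (A : Finset ℕ) (f : Finset ℕ → ℝ) (π : Equiv.Perm ℕ) : ℝ :=
  Ex (1 / 2) A (fun x => |f x - f (x.map π.toEmbedding)|)

/-- `E |f x - f (x with bit i flipped)|` -/
noncomputable def I1 (A : Finset ℕ) (f : Finset ℕ → ℝ) (i : ℕ) : ℝ :=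
  Ex (1 / 2) (A.erase i) (fun x => |f (insert i x) - f x|)

/-- number of level-`j` dyadic blocks hit by `S` -/
def nb (j : ℕ) (S : Finset ℕ) : ℕ := (S.image (fun i => i / 2 ^ j)).card

/-- swap of the two halves of the `b`-th dyadic block of length `2^(j+1)` -/
def swf (j b i : ℕ) : ℕ :=
  if i / 2 ^ (j + 1) = b then (if i / 2 ^ j % 2 = 0 then i + 2 ^ j else i - 2 ^ j) else i

/-- rotation by one of the `b`-th dyadic block of length `2^m` -/
def rotf (m b i : ℕ) : ℕ :=
  if i / 2 ^ m = b then b * 2 ^ m + (i % 2 ^ m + 1) % 2 ^ m else i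

/-- inverse rotation -/
def rotg (m b i : ℕ) : ℕ :=
  if i / 2 ^ m = b then b * 2 ^ m + (i % 2 ^ m + (2 ^ m - 1)) % 2 ^ m else i

theorem div_succ_eq (j i : ℕ) : i / 2 ^ (j + 1) = i / 2 ^ j / 2 := by
  rw [pow_succ, Nat.div_div_eq_div_mul]

theorem swf_swf (j b i : ℕ) : swf j b (swf j b i) = i := by
  have hp : 0 < 2 ^ j := by positivity
  unfold swf
  by_cases h : i / 2 ^ (j + 1) = b
  · rw [if_pos h]
    by_cases h2 : i / 2 ^ j % 2 = 0
    · rw [if_pos h2]
      have h3 : (i + 2 ^ j) / 2 ^ j = i / 2 ^ j + 1 := Nat.add_div_right i hp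
      have h4 : (i + 2 ^ j) / 2 ^ (j + 1) = b := by
        rw [div_succ_eq, h3, ← h, div_succ_eq]
        omega
      rw [if_pos h4, h3, if_neg (by omega)]
      omega
    · rw [if_neg h2]
      have h5 : 2 ^ j ≤ i := by
        by_contra hcon
        push Not at hcon
        rw [Nat.div_eq_of_lt hcon] at h2
        exact h2 rfl
      have h3 : (i - 2 ^ j) / 2 ^ j = i / 2 ^ j - 1 := by
        have := Nat.sub_mul_div i (2 ^ j) 1
        simpa using this
      have h6 : i / 2 ^ j - 1 + 1 = i / 2 ^ j := by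
        have := Nat.div_pos h5 hp
        omega
      have h4 : (i - 2 ^ j) / 2 ^ (j + 1) = b := by
        rw [div_succ_eq, h3, ← h, div_succ_eq]
        omega
      have h7 : (i / 2 ^ j - 1) % 2 = 0 := by omega
      rw [if_pos h4, h3, if_pos h7]
      exact Nat.sub_add_cancel h5
  · rw [if_neg h, if_neg h]

/-- the swap as a permutation of `ℕ` -/
def sw (j b : ℕ) : Equiv.Perm ℕ := ⟨swf j b, swf j b, swf_swf j b, swf_swf j b⟩

theorem rot_aux {m b i c : ℕ} (_h : i / 2 ^ m = b) :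
    (b * 2 ^ m + (i % 2 ^ m + c) % 2 ^ m) / 2 ^ m = b ∧
      (b * 2 ^ m + (i % 2 ^ m + c) % 2 ^ m) % 2 ^ m = (i % 2 ^ m + c) % 2 ^ m := by
  have hp : 0 < 2 ^ m := by positivity
  have hlt : (i % 2 ^ m + c) % 2 ^ m < 2 ^ m := Nat.mod_lt _ hp
  constructor
  · rw [mul_comm, Nat.mul_add_div hp, Nat.div_eq_of_lt hlt, add_zero]
  · rw [mul_comm, Nat.mul_add_mod, Nat.mod_mod]

theorem rotg_rotf (m b i : ℕ) : rotg m b (rotf m b i) = i := by
  have hp : 0 < 2 ^ m := by positivity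
  unfold rotf
  by_cases h : i / 2 ^ m = b
  · rw [if_pos h]
    obtain ⟨h1, h2⟩ := rot_aux (c := 1) h
    unfold rotg
    rw [if_pos h1, h2, Nat.mod_add_mod]
    have h3 : i % 2 ^ m + 1 + (2 ^ m - 1) = i % 2 ^ m + 2 ^ m := by omega
    rw [h3, Nat.add_mod_right, Nat.mod_mod, ← h]
    exact Nat.div_add_mod' i (2 ^ m)
  · rw [if_neg h]
    unfold rotg
    rw [if_neg h]

theorem rotf_rotg (m b i : ℕ) : rotf m b (rotg m b i) = i := by
  have hp : 0 < 2 ^ m := by positivity
  unfold rotg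
  by_cases h : i / 2 ^ m = b
  · rw [if_pos h]
    obtain ⟨h1, h2⟩ := rot_aux (c := 2 ^ m - 1) h
    unfold rotf
    rw [if_pos h1, h2, Nat.mod_add_mod]
    have h3 : i % 2 ^ m + (2 ^ m - 1) + 1 = i % 2 ^ m + 2 ^ m := by omega
    rw [h3, Nat.add_mod_right, Nat.mod_mod, ← h]
    exact Nat.div_add_mod' i (2 ^ m)
  · rw [if_neg h]
    unfold rotf
    rw [if_neg h]

/-- the rotation as a permutation of `ℕ` -/
def rot (m b : ℕ) : Equiv.Perm ℕ := ⟨rotf m b, rotg m b, rotg_rotf m b, rotf_rotg m b⟩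

/-- the word of length `n` with support `x` -/
def wd (n : ℕ) (x : Finset ℕ) : List Bool := (List.range n).map (fun i => decide (i ∈ x))

theorem length_wd (n : ℕ) (x : Finset ℕ) : (wd n x).length = n := by simp [wd]

end Vale.Agent.P238
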