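import Mathlib

/-!
# P238: numerics
-/

namespace Vale.Agent.P238

open Finset

theorem num_pow_aux : ∀ L : ℕ, 8 ≤ L → 4 * (13 + 2 * L) ≤ 2 ^ L := by
  intro L hL
  induction L, hL using Nat.le_induction with
  | base => norm_num
  | succ L hL ih =>
    rw [pow_succ]
    have : 8 ≤ 2 ^ L := le_trans (by omega) ih
    omega

theorem num_logs {n N L k : ℕ} (hn0 : n ≠ 0) (h2N : 2 ^ N ≤ n) (hn1 : n < 2 ^ (N + 1))
    (h2L : 2 ^ L ≤ N) (hN256 : 256 ≤ N) (hk : k = 13 + 2 * L) :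
    1 / (4 * 1024 * 961 * 20) * (Real.log n) ^ 2 / Real.log (Real.log n)
      ≤ (N : ℝ) ^ 2 / (1024 * 961 * k) := by
  have hNr : (256 : ℝ) ≤ N := by exact_mod_cast hN256
  have hNpos : (0 : ℝ) < N := by linarith
  have hk1 : (1 : ℝ) ≤ k := by
    have : 1 ≤ k := by omega
    exact_mod_cast this
  have hlog2 : 0.6931471803 < Real.log 2 := Real.log_two_gt_d9
  have hlog2' : Real.log 2 < 0.6931471808 := Real.log_two_lt_d9
  have hnr : (0 : ℝ) < n := by
    have : 0 < n := Nat.pos_of_ne_zero hn0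
    exact_mod_cast this
  have l1 : (N : ℝ) * Real.log 2 ≤ Real.log n := by
    rw [← Real.log_pow]
    exact Real.log_le_log (by positivity) (by exact_mod_cast h2N)
  have l2 : Real.log n ≤ (N + 1) * Real.log 2 := by
    have : Real.log n ≤ Real.log ((2 : ℝ) ^ (N + 1)) :=
      Real.log_le_log hnr (by exact_mod_cast hn1.le)
    rw [Real.log_pow] at this
    push_cast at this
    exact this
  have l3 : (L : ℝ) * Real.log 2 ≤ Real.log N := by
    rw [← Real.log_pow]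
    exact Real.log_le_log (by positivity) (by exact_mod_cast h2L)
  have hx : (100 : ℝ) ≤ Real.log n := by nlinarith
  have l4 : Real.log n ≤ 2 * N := by nlinarith
  have l5 : (N : ℝ) ≤ 2 * Real.log n := by nlinarith
  have hLL1 : 1 ≤ Real.log (Real.log n) := by
    have : Real.log (Real.exp 1) ≤ Real.log (Real.log n) := by
      refine Real.log_le_log (Real.exp_pos 1) ?_
      have := Real.exp_one_lt_d9
      linarith
    rwa [Real.log_exp] at this
  have l6 : Real.log N ≤ Real.log 2 + Real.log (Real.log n) := by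
    rw [← Real.log_mul (by norm_num) (by linarith)]
    exact Real.log_le_log hNpos l5
  have l7 : (k : ℝ) ≤ 20 * Real.log (Real.log n) := by
    have hkr : (k : ℝ) = 13 + 2 * L := by rw [hk]; push_cast; ring
    have h3 : (L : ℝ) * Real.log 2 ≤ Real.log 2 + Real.log (Real.log n) := l3.trans l6
    have h4 : (L : ℝ) ≤ 1 + 2 * Real.log (Real.log n) := by
      by_contra hcon
      push Not at hcon
      nlinarith
    rw [hkr]
    nlinarith
  have hLLpos : 0 < Real.log (Real.log n) := by linarith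
  rw [div_le_div_iff₀ hLLpos (by positivity)]
  have h3 : Real.log n ^ 2 ≤ 4 * (N : ℝ) ^ 2 := by nlinarith
  have h4 : 1 / (4 * 1024 * 961 * 20) * Real.log n ^ 2 * (1024 * 961 * k)
      = Real.log n ^ 2 * k / 80 := by ring
  rw [h4]
  have h5 : Real.log n ^ 2 * k ≤ (4 * (N : ℝ) ^ 2) * (20 * Real.log (Real.log n)) :=
    mul_le_mul h3 l7 (by positivity) (by positivity)
  linarith


/-- numerics -/
theorem lower_of_ineq' : ∃ c : ℝ, 0 < c ∧ ∃ n₀ : ℕ, ∀ n : ℕ, n₀ ≤ n → ∀ D : ℝ, 0 ≤ D →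
    (∀ N k κ : ℕ, 2 ^ N ≤ n → 1 ≤ k → 1 ≤ κ → 48 * κ + k ≤ N →
      ((Icc (48 * κ) (N - k)).card : ℝ) / 256 ≤
        D * (4 * (Icc (48 * κ) (N - k)).card / 2 ^ k + 5 * k / κ)) →
    c * (Real.log n) ^ 2 / Real.log (Real.log n) ≤ D := by
  refine ⟨1 / (4 * 1024 * 961 * 20), by norm_num, 2 ^ 256, ?_⟩
  intro n hn D hD h
  obtain ⟨N, hN⟩ : ∃ N, N = Nat.log 2 n := ⟨_, rfl⟩
  obtain ⟨L, hL⟩ : ∃ L, L = Nat.log 2 N := ⟨_, rfl⟩
  have hn0 : n ≠ 0 := by
    have : (0 : ℕ) < 2 ^ 256 := by positivity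
    omega
  have h2N : 2 ^ N ≤ n := by rw [hN]; exact Nat.pow_log_le_self 2 hn0
  have hN256 : 256 ≤ N := by
    rw [hN]
    exact (Nat.le_log_iff_pow_le (by norm_num) hn0).mpr hn
  have hN0 : N ≠ 0 := by omega
  have hn1 : n < 2 ^ (N + 1) := by rw [hN]; exact Nat.lt_pow_succ_log_self (by norm_num) n
  have h2L : 2 ^ L ≤ N := by rw [hL]; exact Nat.pow_log_le_self 2 hN0
  have hL8 : 8 ≤ L := by
    rw [hL]
    exact (Nat.le_log_iff_pow_le (by norm_num) hN0).mpr (by norm_num; exact hN256)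
  have hNL : N < 2 ^ (L + 1) := by rw [hL]; exact Nat.lt_pow_succ_log_self (by norm_num) N
  have hk4 : 4 * (13 + 2 * L) ≤ N := le_trans (num_pow_aux L hL8) h2L
  obtain ⟨k, hk⟩ : ∃ k, k = 13 + 2 * L := ⟨_, rfl⟩
  obtain ⟨κ, hκ⟩ : ∃ κ, κ = N / 96 := ⟨_, rfl⟩
  have hκ1 : 1 ≤ κ := by omega
  have hκ2 : 48 * κ + k ≤ N := by omega
  have hκ3 : N ≤ 192 * κ := by omega
  have hmain := h N k κ h2N (by omega) hκ1 hκ2
  obtain ⟨C, hC⟩ : ∃ C, C = (Icc (48 * κ) (N - k)).card := ⟨_, rfl⟩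
  rw [← hC] at hmain
  have hCeq : C = N - k + 1 - 48 * κ := by rw [hC, Nat.card_Icc]
  have hC1 : N ≤ 4 * C := by omega
  have hC2 : C ≤ 2 * N := by omega
  -- 2^k ≥ 2048 N^2
  have hpk : 2048 * N ^ 2 ≤ 2 ^ k := by
    have h1 : N ^ 2 ≤ (2 ^ (L + 1)) ^ 2 := Nat.pow_le_pow_left hNL.le 2
    have h2 : 2 ^ k = 2048 * (2 ^ (L + 1)) ^ 2 := by
      rw [hk, ← pow_mul, show (2048 : ℕ) = 2 ^ 11 by norm_num, ← pow_add]
      congr 1
      ring
    rw [h2]
    exact Nat.mul_le_mul_left _ h1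
  have hNr : (256 : ℝ) ≤ N := by exact_mod_cast hN256
  have hNpos : (0 : ℝ) < N := by linarith
  have hC1r : (N : ℝ) ≤ 4 * C := by exact_mod_cast hC1
  have hC2r : (C : ℝ) ≤ 2 * N := by exact_mod_cast hC2
  have hpkr : (2048 : ℝ) * N ^ 2 ≤ 2 ^ k := by exact_mod_cast hpk
  have hκr : (N : ℝ) ≤ 192 * κ := by exact_mod_cast hκ3
  have hκpos : (0 : ℝ) < κ := by exact_mod_cast hκ1
  have hk1 : (1 : ℝ) ≤ k := by
    have : 1 ≤ k := by omega
    exact_mod_cast this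
  have e1 : 4 * (C : ℝ) / 2 ^ k ≤ k / N := by
    rw [div_le_div_iff₀ (by positivity) hNpos]
    have h3 : (4 : ℝ) * C * N ≤ 8 * N ^ 2 := by nlinarith
    have h4 : (8 : ℝ) * N ^ 2 ≤ 2048 * N ^ 2 := by nlinarith [sq_nonneg (N : ℝ)]
    have h5 : (2 : ℝ) ^ k ≤ k * 2 ^ k := by
      have : (0 : ℝ) < 2 ^ k := by positivity
      nlinarith
    linarith
  have e2 : 5 * (k : ℝ) / κ ≤ 960 * k / N := by
    rw [div_le_div_iff₀ hκpos hNpos]
    nlinarith
  have e3 : 4 * (C : ℝ) / 2 ^ k + 5 * k / κ ≤ 961 * k / N := by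
    have : 961 * (k : ℝ) / N = k / N + 960 * k / N := by ring
    rw [this]
    linarith
  have e4 : (N : ℝ) / 1024 ≤ D * (961 * k / N) := by
    have h3 : (N : ℝ) / 1024 ≤ (C : ℝ) / 256 := by linarith
    have h4 := mul_le_mul_of_nonneg_left e3 hD
    linarith
  have e5 : (N : ℝ) ^ 2 / (1024 * 961 * k) ≤ D := by
    rw [div_le_iff₀ (by positivity)]
    have h3 : (N : ℝ) / 1024 * N ≤ D * (961 * k / N) * N := mul_le_mul_of_nonneg_right e4 hNpos.le
    have h4 : D * (961 * k / N) * N = D * (961 * k) := by field_simp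
    rw [h4] at h3
    nlinarith
  exact le_trans (num_logs hn0 h2N hn1 h2L hN256 hk) e5

end Vale.Agent.P238
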