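import Vale.Agent.P238.KeyIneq
import Vale.Agent.P238.Numerics

/-!
# P238: the lower bound for `c₁`
-/

namespace Vale.Agent.P238

open Finset

open scoped ENNReal

theorem ED_self {α : Type*} (x : List α) : ED x x = 0 :=
  Nat.le_zero.mp (Nat.sInf_le (show EditPath 0 x x from rfl))

theorem ED_pos {α : Type*} {x y : List α} (h : x ≠ y) : 0 < ED x y := by
  rcases Nat.eq_zero_or_pos (ED x y) with h0 | h0
  · exfalso
    have := ED_path x y
    rw [h0] at this
    exact h this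
  · exact h0

theorem exists_ne_word {n : ℕ} (hn1 : 1 ≤ n) : ∃ x y : Word n, x ≠ y := by
  refine ⟨⟨List.replicate n true, List.length_replicate⟩,
    ⟨List.replicate n false, List.length_replicate⟩, ?_⟩
  intro h
  have h2 := congrArg Subtype.val h
  simp only at h2
  have h4 : (List.replicate n true)[0]'(by rw [List.length_replicate]; omega)
      = (List.replicate n false)[0]'(by rw [List.length_replicate]; omega) := by
    simp only [h2]
  simp at h4

theorem dist_lower {n : ℕ} (hn1 : 1 ≤ n) (f : Word n → Ell1) (hf : Function.Injective f)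
    (A B : ℝ≥0∞) (hAle : ∀ x y : Word n, x ≠ y → ENNReal.ofReal (‖f x - f y‖ / ED x.1 y.1) ≤ A)
    (hBle : ∀ x y : Word n, x ≠ y → ENNReal.ofReal (ED x.1 y.1 / ‖f x - f y‖) ≤ B) (t : ℝ)
    (ht : ∀ α β : ℝ, 0 ≤ α → 0 ≤ β → (∀ x y : Word n, ‖f x - f y‖ ≤ α * ED x.1 y.1) →
      (∀ x y : Word n, (ED x.1 y.1 : ℝ) ≤ β * ‖f x - f y‖) → t ≤ α * β) :
    ENNReal.ofReal t ≤ A * B := by
  have hED : ∀ x y : Word n, x ≠ y → (0 : ℝ) < ED x.1 y.1 := by
    intro x y hxy
    exact_mod_cast ED_pos (fun h => hxy (Subtype.ext h))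
  have hnorm : ∀ x y : Word n, x ≠ y → 0 < ‖f x - f y‖ := by
    intro x y hxy
    rw [norm_pos_iff, sub_ne_zero]
    exact fun h => hxy (hf h)
  obtain ⟨x₀, y₀, hxy₀⟩ := exists_ne_word hn1
  have hA0 : A ≠ 0 := by
    intro h0
    have := hAle x₀ y₀ hxy₀
    rw [h0, nonpos_iff_eq_zero, ENNReal.ofReal_eq_zero] at this
    have h5 : 0 < ‖f x₀ - f y₀‖ / ED x₀.1 y₀.1 := div_pos (hnorm _ _ hxy₀) (hED _ _ hxy₀)
    linarith
  have hB0 : B ≠ 0 := by
    intro h0
    have := hBle x₀ y₀ hxy₀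
    rw [h0, nonpos_iff_eq_zero, ENNReal.ofReal_eq_zero] at this
    have h5 : 0 < ED x₀.1 y₀.1 / ‖f x₀ - f y₀‖ := div_pos (hED _ _ hxy₀) (hnorm _ _ hxy₀)
    linarith
  by_cases hAt : A = ⊤
  · rw [hAt, ENNReal.top_mul hB0]
    exact le_top
  by_cases hBt : B = ⊤
  · rw [hBt, ENNReal.mul_top hA0]
    exact le_top
  have hA' : 0 ≤ A.toReal := ENNReal.toReal_nonneg
  have hB' : 0 ≤ B.toReal := ENNReal.toReal_nonneg
  have h1 : ∀ x y : Word n, ‖f x - f y‖ ≤ A.toReal * ED x.1 y.1 := by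
    intro x y
    by_cases hxy : x = y
    · subst hxy
      rw [sub_self, norm_zero]
      exact mul_nonneg hA' (Nat.cast_nonneg _)
    · have h6 := hAle x y hxy
      rw [ENNReal.ofReal_le_iff_le_toReal hAt, div_le_iff₀ (hED x y hxy)] at h6
      exact h6
  have h2 : ∀ x y : Word n, (ED x.1 y.1 : ℝ) ≤ B.toReal * ‖f x - f y‖ := by
    intro x y
    by_cases hxy : x = y
    · subst hxy
      rw [ED_self, Nat.cast_zero]
      exact mul_nonneg hB' (norm_nonneg _)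
    · have h6 := hBle x y hxy
      rw [ENNReal.ofReal_le_iff_le_toReal hBt, div_le_iff₀ (hnorm x y hxy)] at h6
      exact h6
  have hfin := ht A.toReal B.toReal hA' hB' h1 h2
  calc ENNReal.ofReal t ≤ ENNReal.ofReal (A.toReal * B.toReal) := ENNReal.ofReal_le_ofReal hfin
    _ = A * B := by
        rw [ENNReal.ofReal_mul hA', ENNReal.ofReal_toReal hAt, ENNReal.ofReal_toReal hBt]

theorem c1_lower' : ∃ c : ℝ, 0 < c ∧ ∃ n₀ : ℕ, ∀ n : ℕ, n₀ ≤ n →
    ENNReal.ofReal (c * (Real.log n) ^ 2 / Real.log (Real.log n)) ≤ c1 n := by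
  obtain ⟨c, hc, n₀, h⟩ := lower_of_ineq'
  refine ⟨c, hc, max n₀ 1, ?_⟩
  intro n hn
  have hn0 : n₀ ≤ n := le_trans (le_max_left _ _) hn
  have hn1 : 1 ≤ n := le_trans (le_max_right _ _) hn
  unfold c1
  refine le_iInf (fun f => le_iInf (fun hf => ?_))
  unfold distortion
  refine dist_lower hn1 f hf _ _ ?_ ?_ _ ?_
  · intro x y hxy
    exact le_iSup_of_le x (le_iSup_of_le y (le_iSup_of_le hxy le_rfl))
  · intro x y hxy
    exact le_iSup_of_le x (le_iSup_of_le y (le_iSup_of_le hxy le_rfl))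
  · intro α β hα hβ h1 h2
    refine h n hn0 (α * β) (mul_nonneg hα hβ) ?_
    intro N k κ hN hk hκ ha
    let F : Finset ℕ → Ell1 := fun x => f ⟨wd n x, length_wd n x⟩
    have hF1 : ∀ x y, ‖F x - F y‖ ≤ α * ED (wd n x) (wd n y) :=
      fun x y => h1 ⟨wd n x, length_wd n x⟩ ⟨wd n y, length_wd n y⟩
    have hF2 : ∀ x y, (ED (wd n x) (wd n y) : ℝ) ≤ β * ‖F x - F y‖ :=
      fun x y => h2 ⟨wd n x, length_wd n x⟩ ⟨wd n y, length_wd n y⟩
    exact key_ineq' hN hk hκ ha hα hβ F hF1 hF2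

end Vale.Agent.P238
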