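import Vale.Agent.P238.CountDef

/-!
# P238: counting bad blocks
-/

namespace Vale.Agent.P238

open Finset

theorem cnt_div_div (i j k : ℕ) : i / 2 ^ (j + k) = i / 2 ^ j / 2 ^ k := by
  rw [pow_add, Nat.div_div_eq_div_mul]

theorem cnt_image (j k : ℕ) (S : Finset ℕ) :
    S.image (fun i => i / 2 ^ (j + k)) = (S.image (fun i => i / 2 ^ j)).image (fun i => i / 2 ^ k) := by
  rw [Finset.image_image]
  exact Finset.image_congr (fun i _ => cnt_div_div i j k)

theorem nb_anti {j j' : ℕ} (h : j ≤ j') (S : Finset ℕ) : nb j' S ≤ nb j S := by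
  obtain ⟨k, rfl⟩ := Nat.exists_eq_add_of_le h
  unfold nb
  rw [cnt_image]
  exact Finset.card_image_le

theorem bad_count {N j k : ℕ} (hk : 1 ≤ k) (hjk : j + k ≤ N) {S : Finset ℕ}
    (hS : S ⊆ range (2 ^ N)) :
    ((range (2 ^ (N - j - 1))).filter (fun b => Bad j k b S)).card + 2 * nb (j + k) S ≤
      2 * nb j S := by
  classical
  set T := S.image (fun i => i / 2 ^ j) with hT
  set W := T.image (fun i => i / 2 ^ k) with hW
  set B := (range (2 ^ (N - j - 1))).filter (fun b => Bad j k b S) with hB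
  have e1 : nb (j + k) S = W.card := by
    unfold nb
    rw [cnt_image]
  have e2 : nb j S = ∑ w ∈ W, (T.filter (fun i => i / 2 ^ k = w)).card :=
    Finset.card_eq_sum_card_image _ _
  have hdiv : ∀ i : ℕ, i / 2 ^ (j + 1) / 2 ^ (k - 1) = i / 2 ^ j / 2 ^ k := by
    intro i
    rw [← cnt_div_div, ← cnt_div_div]
    congr 2
    omega
  have e3 : B.card = ∑ w ∈ W, (B.filter (fun b => b / 2 ^ (k - 1) = w)).card := by
    refine Finset.card_eq_sum_card_fiberwise ?_
    intro b hb
    rw [Finset.mem_coe, hB, Finset.mem_filter] at hb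
    obtain ⟨i, hi, hib⟩ := hb.2.1
    rw [Finset.mem_coe, hW, Finset.mem_image]
    refine ⟨i / 2 ^ j, Finset.mem_image_of_mem _ hi, ?_⟩
    simp only
    rw [← hib, hdiv]
  have key : ∀ w ∈ W, (B.filter (fun b => b / 2 ^ (k - 1) = w)).card + 2 ≤
      2 * (T.filter (fun i => i / 2 ^ k = w)).card := by
    intro w hw
    have h1 : 1 ≤ (T.filter (fun i => i / 2 ^ k = w)).card := by
      obtain ⟨c, hc, hcw⟩ := Finset.mem_image.1 hw
      exact Finset.card_pos.2 ⟨c, Finset.mem_filter.2 ⟨hc, hcw⟩⟩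
    have h2 : (B.filter (fun b => b / 2 ^ (k - 1) = w)).card ≤
        (T.filter (fun i => i / 2 ^ k = w)).card := by
      refine le_trans (Finset.card_le_card ?_)
        (Finset.card_image_le (s := T.filter (fun i => i / 2 ^ k = w)) (f := fun i => i / 2))
      intro b hb
      rw [Finset.mem_filter] at hb
      obtain ⟨hb1, hb2⟩ := hb
      rw [hB, Finset.mem_filter] at hb1
      obtain ⟨i, hi, hib⟩ := hb1.2.1
      rw [Finset.mem_image]
      refine ⟨i / 2 ^ j, Finset.mem_filter.2 ⟨Finset.mem_image_of_mem _ hi, ?_⟩, ?_⟩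
      · rw [← hdiv, hib, hb2]
      · rw [← div_succ_eq, hib]
    by_cases hne : (B.filter (fun b => b / 2 ^ (k - 1) = w)).card = 0
    · omega
    · obtain ⟨b, hb⟩ := Finset.card_pos.1 (Nat.pos_of_ne_zero hne)
      rw [Finset.mem_filter] at hb
      obtain ⟨hb1, hb2⟩ := hb
      rw [hB, Finset.mem_filter] at hb1
      obtain ⟨_, i, hi, i', hi', h3, h4, h5⟩ := hb1.2
      have h6 : 2 ≤ (T.filter (fun i => i / 2 ^ k = w)).card := by
        refine Finset.one_lt_card.2 ⟨i / 2 ^ j, ?_, i' / 2 ^ j, ?_, h5⟩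
        · exact Finset.mem_filter.2 ⟨Finset.mem_image_of_mem _ hi, by rw [← cnt_div_div, h3, hb2]⟩
        · exact Finset.mem_filter.2 ⟨Finset.mem_image_of_mem _ hi', by rw [← cnt_div_div, h4, hb2]⟩
      omega
  rw [e1, e2, e3, Finset.mul_sum, Finset.card_eq_sum_ones, Finset.mul_sum, ← Finset.sum_add_distrib]
  refine Finset.sum_le_sum (fun w hw => ?_)
  have := key w hw
  omega

theorem cnt_telescope_one (f : ℕ → ℕ) (a M : ℕ) :
    ∑ j ∈ Icc a M, f j ≤ ∑ j ∈ Icc a M, f (j + 1) + f a := by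
  by_cases h : a ≤ M
  · induction M, h using Nat.le_induction with
    | base => simp
    | succ M hM ih =>
      rw [Finset.sum_Icc_succ_top (by omega), Finset.sum_Icc_succ_top (by omega)]
      have h1 : ∀ M, a ≤ M → ∑ j ∈ Icc a M, f j + f (M + 1) = ∑ j ∈ Icc a M, f (j + 1) + f a := by
        intro M hM
        induction M, hM using Nat.le_induction with
        | base => simp; omega
        | succ M hM ih2 =>
          rw [Finset.sum_Icc_succ_top (by omega), Finset.sum_Icc_succ_top (by omega)]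
          omega
      have h2 := h1 M hM
      omega
  · rw [Finset.Icc_eq_empty h]
    simp

theorem cnt_telescope (f : ℕ → ℕ) (hf : ∀ j, f (j + 1) ≤ f j) (a M k : ℕ) :
    ∑ j ∈ Icc a M, f j ≤ ∑ j ∈ Icc a M, f (j + k) + k * f a := by
  induction k with
  | zero => simp
  | succ k ih =>
    have h1 := cnt_telescope_one (fun j => f (j + k)) a M
    have h2 : f (a + k) ≤ f a := by
      clear h1 ih
      induction k with
      | zero => exact le_rfl
      | succ k ih => exact (hf (a + k)).trans ih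
    have h3 : ∑ j ∈ Icc a M, f (j + 1 + k) = ∑ j ∈ Icc a M, f (j + (k + 1)) := by
      refine Finset.sum_congr rfl (fun j _ => ?_)
      congr 1
      ring
    rw [h3] at h1
    rw [add_mul, one_mul]
    omega

theorem nb_telescope (a N k : ℕ) (S : Finset ℕ) :
    ∑ j ∈ Icc a (N - k), nb j S ≤ ∑ j ∈ Icc a (N - k), nb (j + k) S + k * nb a S :=
  cnt_telescope (fun j => nb j S) (fun j => nb_anti (Nat.le_succ j) S) a (N - k) k

theorem nb_le {N a κ : ℕ} (hκ : 1 ≤ κ) (ha : a ≤ N) {S : Finset ℕ} (hS : S ⊆ range (2 ^ N)) :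
    (nb a S : ℝ) ≤ (S.card : ℝ) / κ +
      (((range (2 ^ (N - a))).filter
        (fun q => 1 ≤ (part a q S).card ∧ (part a q S).card ≤ κ)).card : ℝ) := by
  classical
  set Q := S.image (fun i => i / 2 ^ a) with hQ
  set Q1 := (range (2 ^ (N - a))).filter
        (fun q => 1 ≤ (part a q S).card ∧ (part a q S).card ≤ κ) with hQ1
  set Q2 := Q.filter (fun q => κ < (part a q S).card) with hQ2
  have h1 : Q ⊆ Q1 ∪ Q2 := by
    intro q hq
    obtain ⟨i, hi, hiq⟩ := Finset.mem_image.1 hq
    have hpos : 1 ≤ (part a q S).card :=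
      Finset.card_pos.2 ⟨i, Finset.mem_filter.2 ⟨hi, hiq⟩⟩
    have hlt : q < 2 ^ (N - a) := by
      have h3 := Finset.mem_range.1 (hS hi)
      rw [← hiq]
      have e : 2 ^ N = 2 ^ (N - a) * 2 ^ a := by
        rw [← pow_add]
        congr 1
        omega
      rw [e] at h3
      exact Nat.div_lt_of_lt_mul (by rwa [mul_comm] at h3)
    rw [Finset.mem_union]
    by_cases hc : (part a q S).card ≤ κ
    · left
      exact Finset.mem_filter.2 ⟨Finset.mem_range.2 hlt, hpos, hc⟩
    · right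
      exact Finset.mem_filter.2 ⟨hq, not_le.1 hc⟩
  have h2 : nb a S ≤ Q1.card + Q2.card :=
    (Finset.card_le_card h1).trans (Finset.card_union_le _ _)
  have h3 : κ * Q2.card ≤ S.card := by
    have e : S.card = ∑ q ∈ Q, (S.filter (fun i => i / 2 ^ a = q)).card :=
      Finset.card_eq_sum_card_image _ _
    calc κ * Q2.card = ∑ _q ∈ Q2, κ := by rw [Finset.sum_const, smul_eq_mul, mul_comm]
      _ ≤ ∑ q ∈ Q2, (part a q S).card :=
          Finset.sum_le_sum (fun q hq => (Finset.mem_filter.1 hq).2.le)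
      _ ≤ ∑ q ∈ Q, (part a q S).card :=
          Finset.sum_le_sum_of_subset (Finset.filter_subset _ _)
      _ = S.card := e.symm
  have hκ' : (0 : ℝ) < κ := by exact_mod_cast hκ
  have h4 : (Q2.card : ℝ) ≤ (S.card : ℝ) / κ := by
    rw [le_div_iff₀ hκ']
    have : ((κ * Q2.card : ℕ) : ℝ) ≤ (S.card : ℝ) := by exact_mod_cast h3
    push_cast at this
    linarith
  have h5 : (nb a S : ℝ) ≤ (Q1.card : ℝ) + (Q2.card : ℝ) := by exact_mod_cast h2
  linarith

end Vale.Agent.P238
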