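import Vale.Agent.P238.Perm

/-!
# P238: bad blocks
-/

namespace Vale.Agent.P238

open Finset

/-- The set `S` meets the block `b` (of length `2^(j+1)`), and inside the ancestor block `w`
(of length `2^(j+k)`) of `b` it meets at least two blocks of length `2^j`. -/
def Bad (j k b : ℕ) (S : Finset ℕ) : Prop :=
  (∃ i ∈ S, i / 2 ^ (j + 1) = b) ∧
    ∃ i ∈ S, ∃ i' ∈ S, i / 2 ^ (j + k) = b / 2 ^ (k - 1) ∧
      i' / 2 ^ (j + k) = b / 2 ^ (k - 1) ∧ i / 2 ^ j ≠ i' / 2 ^ j

instance (j k b : ℕ) (S : Finset ℕ) : Decidable (Bad j k b S) := by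
  unfold Bad; infer_instance

/-- the part of `S` in the `q`-th block of length `2^a` -/
def part (a q : ℕ) (S : Finset ℕ) : Finset ℕ := S.filter (fun i => i / 2 ^ a = q)

end Vale.Agent.P238
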