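import Vale.Agent.P238.Defs

/-! Edit distance on lists: definition, alignments, elementary facts. -/

namespace Vale.Agent.P238

variable {α : Type*}

/-- alignments of cost at most `e` -/
inductive Al : ℕ → List α → List α → Prop
  | nil (e : ℕ) : Al e [] []
  | mat {e : ℕ} {x y : List α} (a : α) : Al e x y → Al e (a :: x) (a :: y)
  | sub {e : ℕ} {x y : List α} (a b : α) : Al e x y → Al (e + 1) (a :: x) (b :: y)
  | del {e : ℕ} {x y : List α} (a : α) : Al e x y → Al (e + 1) (a :: x) y
  | ins {e : ℕ} {x y : List α} (b : α) : Al e x y → Al (e + 1) x (b :: y)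

lemma Al.mono {e e' : ℕ} {x y : List α} (h : Al e x y) (he : e ≤ e') : Al e' x y := by
  induction h generalizing e' with
  | nil e => exact Al.nil _
  | mat a _ ih => exact Al.mat a (ih he)
  | sub a b _ ih =>
    obtain ⟨f, rfl⟩ : ∃ f, e' = f + 1 := ⟨e' - 1, by omega⟩
    exact Al.sub a b (ih (by omega))
  | del a _ ih =>
    obtain ⟨f, rfl⟩ : ∃ f, e' = f + 1 := ⟨e' - 1, by omega⟩
    exact Al.del a (ih (by omega))
  | ins a _ ih =>
    obtain ⟨f, rfl⟩ : ∃ f, e' = f + 1 := ⟨e' - 1, by omega⟩
    exact Al.ins a (ih (by omega))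

lemma Al.refl (e : ℕ) (x : List α) : Al e x x := by
  induction x with
  | nil => exact Al.nil _
  | cons a x ih => exact Al.mat a ih

lemma Al.symm {e : ℕ} {x y : List α} (h : Al e x y) : Al e y x := by
  induction h with
  | nil e => exact Al.nil _
  | mat a _ ih => exact Al.mat a ih
  | sub a b _ ih => exact Al.sub b a ih
  | del a _ ih => exact Al.ins a ih
  | ins a _ ih => exact Al.del a ih

lemma Al.append {e f : ℕ} {x y x' y' : List α} (h : Al e x y) (h' : Al f x' y') :
    Al (e + f) (x ++ x') (y ++ y') := by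
  induction h with
  | nil e => exact h'.mono (by omega)
  | mat a _ ih => exact Al.mat a ih
  | @sub e x y a b _ ih =>
    have : e + 1 + f = e + f + 1 := by omega
    rw [this]; exact Al.sub a b ih
  | @del e x y a _ ih =>
    have : e + 1 + f = e + f + 1 := by omega
    rw [this]; exact Al.del a ih
  | @ins e x y a _ ih =>
    have : e + 1 + f = e + f + 1 := by omega
    rw [this]; exact Al.ins a ih

lemma Al.nil_right (x : List α) : Al x.length x [] := by
  induction x with
  | nil => exact Al.nil _
  | cons a x ih => exact Al.del a ih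

lemma Al.length_le {e : ℕ} {x y : List α} (h : Al e x y) :
    x.length ≤ y.length + e ∧ y.length ≤ x.length + e := by
  induction h with
  | nil e => simp
  | mat a _ ih => simp; omega
  | sub a b _ ih => simp; omega
  | del a _ ih => simp; omega
  | ins a _ ih => simp; omega

lemma Al.trans {e f : ℕ} {x y z : List α} (h : Al e x y) (h' : Al f y z) : Al (e + f) x z := by
  induction h generalizing f z with
  | nil e => exact h'.mono (by omega)
  | @mat e x y a h ih =>
    generalize hw : a :: y = w at h'
    induction h' with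
    | nil f => exact absurd hw (by simp)
    | @mat f y' z' b h2 ih2 =>
      obtain ⟨rfl, rfl⟩ := List.cons.inj hw
      exact Al.mat _ (ih h2)
    | @sub f y' z' b c h2 ih2 =>
      obtain ⟨rfl, rfl⟩ := List.cons.inj hw
      exact Al.sub _ _ (ih h2)
    | @del f y' z' b h2 ih2 =>
      obtain ⟨rfl, rfl⟩ := List.cons.inj hw
      exact Al.del _ (ih h2)
    | @ins f y' z' b h2 ih2 => exact Al.ins _ (ih2 hw)
  | @sub e x y a a' h ih =>
    generalize hw : a' :: y = w at h'
    induction h' with
    | nil f => exact absurd hw (by simp)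
    | @mat f y' z' b h2 ih2 =>
      obtain ⟨rfl, rfl⟩ := List.cons.inj hw
      have : e + 1 + f = e + f + 1 := by omega
      rw [this]
      exact Al.sub _ _ (ih h2)
    | @sub f y' z' b c h2 ih2 =>
      obtain ⟨rfl, rfl⟩ := List.cons.inj hw
      exact (Al.sub a c (ih h2)).mono (by omega)
    | @del f y' z' b h2 ih2 =>
      obtain ⟨rfl, rfl⟩ := List.cons.inj hw
      exact (Al.del a (ih h2)).mono (by omega)
    | @ins f y' z' b h2 ih2 => exact (Al.ins b (ih2 hw)).mono (by omega)
  | @del e x y a h ih => exact (Al.del a (ih h')).mono (by omega)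
  | @ins e x y a h ih =>
    generalize hw : a :: y = w at h'
    induction h' with
    | nil f => exact absurd hw (by simp)
    | @mat f y' z' b h2 ih2 =>
      obtain ⟨rfl, rfl⟩ := List.cons.inj hw
      exact (Al.ins a (ih h2)).mono (by omega)
    | @sub f y' z' b c h2 ih2 =>
      obtain ⟨rfl, rfl⟩ := List.cons.inj hw
      exact (Al.ins c (ih h2)).mono (by omega)
    | @del f y' z' b h2 ih2 =>
      obtain ⟨rfl, rfl⟩ := List.cons.inj hw
      exact (ih h2).mono (by omega)
    | @ins f y' z' b h2 ih2 => exact (Al.ins b (ih2 hw)).mono (by omega)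

lemma Al.split {e : ℕ} {w z : List α} (h : Al e w z) (p q : List α) (hw : w = p ++ q) :
    ∃ z1 z2 e1 e2, z = z1 ++ z2 ∧ e1 + e2 = e ∧ Al e1 p z1 ∧ Al e2 q z2 := by
  induction h generalizing p q with
  | nil e =>
    have h1 : p = [] ∧ q = [] := by
      simpa using hw.symm
    obtain ⟨rfl, rfl⟩ := h1
    exact ⟨[], [], 0, e, rfl, by omega, Al.nil _, Al.nil _⟩
  | @mat e x y a h ih =>
    cases p with
    | nil => exact ⟨[], a :: y, 0, e, rfl, by omega, Al.nil _, by
        rw [List.nil_append] at hw; subst hw; exact Al.mat a h⟩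
    | cons b p =>
      rw [List.cons_append] at hw
      obtain ⟨rfl, rfl⟩ := List.cons.inj hw
      obtain ⟨z1, z2, e1, e2, rfl, h3, h4, h5⟩ := ih p q rfl
      exact ⟨a :: z1, z2, e1, e2, rfl, h3, Al.mat a h4, h5⟩
  | @sub e x y a c h ih =>
    cases p with
    | nil => exact ⟨[], c :: y, 0, e + 1, rfl, by omega, Al.nil _, by
        rw [List.nil_append] at hw; subst hw; exact Al.sub a c h⟩
    | cons b p =>
      rw [List.cons_append] at hw
      obtain ⟨rfl, rfl⟩ := List.cons.inj hw
      obtain ⟨z1, z2, e1, e2, rfl, h3, h4, h5⟩ := ih p q rfl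
      exact ⟨c :: z1, z2, e1 + 1, e2, rfl, by omega, Al.sub a c h4, h5⟩
  | @del e x y a h ih =>
    cases p with
    | nil => exact ⟨[], y, 0, e + 1, rfl, by omega, Al.nil _, by
        rw [List.nil_append] at hw; subst hw; exact Al.del a h⟩
    | cons b p =>
      rw [List.cons_append] at hw
      obtain ⟨rfl, rfl⟩ := List.cons.inj hw
      obtain ⟨z1, z2, e1, e2, rfl, h3, h4, h5⟩ := ih p q rfl
      exact ⟨z1, z2, e1 + 1, e2, rfl, by omega, Al.del a h4, h5⟩
  | @ins e x y a h ih =>
    obtain ⟨z1, z2, e1, e2, rfl, h3, h4, h5⟩ := ih p q hw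
    exact ⟨a :: z1, z2, e1 + 1, e2, rfl, by omega, Al.ins a h4, h5⟩

/-- prefixes of one word differ by the difference of their lengths -/
lemma Al.prefix_diff (x t : List α) : Al t.length (x ++ t) x := by
  have h := (Al.refl 0 x).append (Al.nil_right t)
  simpa using h

lemma Al.suffix_diff (t x : List α) : Al t.length (t ++ x) x := by
  have h := (Al.nil_right t).append (Al.refl 0 x)
  simpa using h

/-- windows: a common prefix window -/
lemma Al.take {e : ℕ} {x z : List α} (h : Al e x z) (hl : x.length = z.length) (k : ℕ) :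
    Al e (x.take k) (z.take k) := by
  obtain ⟨z1, z2, e1, e2, rfl, h3, h4, h5⟩ := h.split (x.take k) (x.drop k) (by simp)
  have l4 := h4.length_le
  have l5 := h5.length_le
  rw [List.length_append] at hl
  rw [List.length_take] at l4
  rw [List.length_drop] at l5
  -- compare z1 with take k (z1 ++ z2)
  rcases le_total k z1.length with hk | hk
  · have e1' : (z1 ++ z2).take k = z1.take k := List.take_append_of_le_length hk
    rw [e1']
    have h6 : Al (z1.drop k).length z1 (z1.take k) := by
      have := Al.prefix_diff (z1.take k) (z1.drop k)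
      rwa [List.take_append_drop] at this
    refine (h4.trans h6).mono ?_
    rw [List.length_drop]
    omega
  · have e1' : (z1 ++ z2).take k = z1 ++ z2.take (k - z1.length) := by
      rw [List.take_append, List.take_of_length_le hk]
    rw [e1']
    have h6 : Al (z2.take (k - z1.length)).length z1 (z1 ++ z2.take (k - z1.length)) :=
      (Al.prefix_diff _ _).symm
    refine (h4.trans h6).mono ?_
    rw [List.length_take]
    omega

lemma Al.drop {e : ℕ} {x z : List α} (h : Al e x z) (hl : x.length = z.length) (k : ℕ) :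
    Al e (x.drop k) (z.drop k) := by
  obtain ⟨z1, z2, e1, e2, rfl, h3, h4, h5⟩ := h.split (x.take k) (x.drop k) (by simp)
  have l4 := h4.length_le
  have l5 := h5.length_le
  rw [List.length_append] at hl
  rw [List.length_take] at l4
  rw [List.length_drop] at l5
  rcases le_total k z1.length with hk | hk
  · have e1' : (z1 ++ z2).drop k = z1.drop k ++ z2 := List.drop_append_of_le_length hk
    rw [e1']
    have h6 : Al (z1.drop k).length z2 (z1.drop k ++ z2) := (Al.suffix_diff _ _).symm
    refine (h5.trans h6).mono ?_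
    rw [List.length_drop]
    omega
  · have e1' : (z1 ++ z2).drop k = z2.drop (k - z1.length) := by
      rw [List.drop_append, List.drop_of_length_le hk, List.nil_append]
    rw [e1']
    have h6 : Al (z2.take (k - z1.length)).length z2 (z2.drop (k - z1.length)) := by
      have := Al.suffix_diff (z2.take (k - z1.length)) (z2.drop (k - z1.length))
      rwa [List.take_append_drop] at this
    refine (h5.trans h6).mono ?_
    rw [List.length_take]
    omega

lemma EditStep.al {x y : List α} (h : EditStep x y) : Al 1 x y := by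
  cases h with
  | ins u v a => simpa using (Al.refl 0 u).append (Al.ins a (Al.refl 0 v))
  | del u v a => simpa using (Al.refl 0 u).append (Al.del a (Al.refl 0 v))
  | sub u v a b => simpa using (Al.refl 0 u).append (Al.sub a b (Al.refl 0 v))

lemma EditPath.al {k : ℕ} {x y : List α} (h : EditPath k x y) : Al k x y := by
  induction k generalizing x with
  | zero => cases h; exact Al.refl 0 _
  | succ k ih =>
    obtain ⟨z, h1, h2⟩ := h
    exact (h1.al.trans (ih h2)).mono (by omega)

lemma EditStep.cons {x y : List α} (h : EditStep x y) (c : α) : EditStep (c :: x) (c :: y) := by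
  cases h with
  | ins u v a => exact EditStep.ins (c :: u) v a
  | del u v a => exact EditStep.del (c :: u) v a
  | sub u v a b => exact EditStep.sub (c :: u) v a b

lemma EditPath.cons {k : ℕ} {x y : List α} (h : EditPath k x y) (c : α) :
    EditPath k (c :: x) (c :: y) := by
  induction k generalizing x with
  | zero => cases h; rfl
  | succ k ih =>
    obtain ⟨z, h1, h2⟩ := h
    exact ⟨c :: z, h1.cons c, ih h2⟩

lemma Al.exists_path {e : ℕ} {x y : List α} (h : Al e x y) : ∃ k ≤ e, EditPath k x y := by
  induction h with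
  | nil e => exact ⟨0, by omega, rfl⟩
  | mat a _ ih =>
    obtain ⟨k, hk, h⟩ := ih
    exact ⟨k, hk, h.cons a⟩
  | @sub e x y a b _ ih =>
    obtain ⟨k, hk, h⟩ := ih
    exact ⟨k + 1, by omega, _, EditStep.sub [] x a b, h.cons b⟩
  | @del e x y a _ ih =>
    obtain ⟨k, hk, h⟩ := ih
    exact ⟨k + 1, by omega, _, EditStep.del [] x a, h⟩
  | @ins e x y a _ ih =>
    obtain ⟨k, hk, h⟩ := ih
    exact ⟨k + 1, by omega, _, EditStep.ins [] x a, h.cons a⟩

lemma exists_editPath_h (x y : List α) : ∃ k, EditPath k x y := by
  have h : Al (x.length + y.length) x y := by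
    have := (Al.nil_right x).trans (Al.nil_right y).symm
    exact this
  obtain ⟨k, _, h⟩ := h.exists_path
  exact ⟨k, h⟩

lemma editPath_ED (x y : List α) : EditPath (ED x y) x y :=
  Nat.sInf_mem (s := {k | EditPath k x y}) (exists_editPath_h x y)

lemma al_ED (x y : List α) : Al (ED x y) x y := (editPath_ED x y).al

lemma ED_le_of_al {e : ℕ} {x y : List α} (h : Al e x y) : ED x y ≤ e := by
  obtain ⟨k, hk, h⟩ := h.exists_path
  exact (Nat.sInf_le h).trans hk

lemma ED_le_iff {e : ℕ} {x y : List α} : ED x y ≤ e ↔ Al e x y :=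
  ⟨fun h => (al_ED x y).mono h, ED_le_of_al⟩

/-- an alignment gives a long common subsequence -/
lemma Al.exists_common {e : ℕ} {x y : List α} (h : Al e x y) :
    ∃ z : List α, z.Sublist x ∧ z.Sublist y ∧ x.length ≤ z.length + e := by
  induction h with
  | nil e => exact ⟨[], List.Sublist.refl _, List.Sublist.refl _, by simp⟩
  | mat a _ ih =>
    obtain ⟨z, h1, h2, h3⟩ := ih
    refine ⟨a :: z, h1.cons_cons a, h2.cons_cons a, ?_⟩
    simp only [List.length_cons]; omega
  | sub a b _ ih =>
    obtain ⟨z, h1, h2, h3⟩ := ih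
    refine ⟨z, h1.cons a, h2.cons b, ?_⟩
    simp only [List.length_cons]; omega
  | del a _ ih =>
    obtain ⟨z, h1, h2, h3⟩ := ih
    refine ⟨z, h1.cons a, h2, ?_⟩
    simp only [List.length_cons]; omega
  | ins a _ ih =>
    obtain ⟨z, h1, h2, h3⟩ := ih
    refine ⟨z, h1, h2.cons a, ?_⟩
    omega

end Vale.Agent.P238
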