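import Vale.Agent.P238.Defs

/-!
# P238: edit paths exist, and close words have a long common subsequence
-/

namespace Vale.Agent.P238

variable {α : Type*}

theorem EditPath_trans {k l : ℕ} {x y z : List α} (h : EditPath k x y) (h' : EditPath l y z) :
    EditPath (k + l) x z := by
  induction k generalizing x with
  | zero =>
    have hxy : x = y := h
    subst hxy
    rwa [Nat.zero_add]
  | succ k ih =>
    obtain ⟨w, h1, h2⟩ := h
    rw [Nat.add_right_comm]
    exact ⟨w, h1, ih h2⟩

theorem EditPath_to_nil (x : List α) : EditPath x.length x [] := by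
  induction x with
  | nil => rfl
  | cons a x ih => exact ⟨x, EditStep.del [] x a, ih⟩

theorem EditPath_from_nil (y : List α) : EditPath y.length [] y := by
  induction y with
  | nil => rfl
  | cons a y ih => exact EditPath_trans ih ⟨a :: y, EditStep.ins [] y a, rfl⟩

/-- words are joined by an edit path -/
theorem exists_editPath (x y : List α) : ∃ k, EditPath k x y :=
  ⟨_, EditPath_trans (EditPath_to_nil x) (EditPath_from_nil y)⟩

theorem ED_path (x y : List α) : EditPath (ED x y) x y :=
  Nat.sInf_mem (s := {k | EditPath k x y}) (exists_editPath x y)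

theorem sublist_remove {u v z : List α} {b : α} (h : z.Sublist (u ++ b :: v)) :
    ∃ z' : List α, z'.Sublist (u ++ v) ∧ z'.Sublist z ∧ z.length ≤ z'.length + 1 := by
  rw [List.sublist_append_iff] at h
  obtain ⟨z1, z2, rfl, h1, h2⟩ := h
  rw [List.sublist_cons_iff] at h2
  rcases h2 with h2 | ⟨r, rfl, h2⟩
  · exact ⟨z1 ++ z2, h1.append h2, List.Sublist.refl _, by omega⟩
  · refine ⟨z1 ++ r, h1.append h2, (List.Sublist.refl _).append (List.sublist_cons_self _ _), ?_⟩
    simp only [List.length_append, List.length_cons]
    omega

theorem exists_common_of_path {k : ℕ} {x y : List α} (h : EditPath k x y) :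
    ∃ z : List α, z.Sublist x ∧ z.Sublist y ∧ x.length ≤ z.length + k ∧
      y.length ≤ z.length + k := by
  induction k generalizing x with
  | zero =>
    have hxy : x = y := h
    subst hxy
    exact ⟨x, List.Sublist.refl _, List.Sublist.refl _, le_rfl, le_rfl⟩
  | succ k ih =>
    obtain ⟨w, hs, hp⟩ := h
    obtain ⟨z, h1, h2, h3, h4⟩ := ih hp
    cases hs with
    | ins u v a =>
      obtain ⟨z', g1, g2, g3⟩ := sublist_remove h1
      refine ⟨z', g1, g2.trans h2, ?_, by omega⟩
      simp only [List.length_append, List.length_cons] at h3 ⊢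
      omega
    | del u v a =>
      refine ⟨z, h1.trans ((List.Sublist.refl _).append (List.sublist_cons_self _ _)), h2, ?_,
        by omega⟩
      simp only [List.length_append, List.length_cons] at h3 ⊢
      omega
    | sub u v a b =>
      obtain ⟨z', g1, g2, g3⟩ := sublist_remove h1
      refine ⟨z', g1.trans ((List.Sublist.refl _).append (List.sublist_cons_self _ _)),
        g2.trans h2, ?_, by omega⟩
      simp only [List.length_append, List.length_cons] at h3 ⊢
      omega

/-- close words of the same length have a long common subsequence -/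
theorem exists_common_of_ED {n k : ℕ} {x y : List α} (hx : x.length = n)
    (_hy : y.length = n) (h : ED x y ≤ k) :
    ∃ z : List α, z.Sublist x ∧ z.Sublist y ∧ n ≤ z.length + k := by
  obtain ⟨z, h1, h2, h3, _⟩ := exists_common_of_path (ED_path x y)
  exact ⟨z, h1, h2, by omega⟩

end Vale.Agent.P238
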