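import Vale.Agent.P238.Basic

/-!
# P238: the permutations `sw` and `rot`
-/

namespace Vale.Agent.P238

open Finset

theorem sw_apply (j b i : ℕ) : sw j b i = swf j b i := rfl

theorem sw_symm (j b : ℕ) : (sw j b).symm = sw j b := rfl

theorem rot_apply (m b i : ℕ) : rot m b i = rotf m b i := rfl

theorem rot_symm_apply (m b i : ℕ) : (rot m b).symm i = rotg m b i := rfl

/-- away from the block, the rotation is the identity -/
theorem rot_of_ne {m b i : ℕ} (h : i / 2 ^ m ≠ b) : rot m b i = i := by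
  rw [rot_apply, rotf, if_neg h]

/-- away from the block, the swap is the identity -/
theorem sw_of_ne {j b i : ℕ} (h : i / 2 ^ (j + 1) ≠ b) : sw j b i = i := by
  rw [sw_apply, swf, if_neg h]

theorem sw_div_succ (j b i : ℕ) : sw j b i / 2 ^ (j + 1) = i / 2 ^ (j + 1) := by
  have hp : 0 < 2 ^ j := by positivity
  by_cases h : i / 2 ^ (j + 1) = b
  · rw [sw_apply, swf, if_pos h]
    by_cases h2 : i / 2 ^ j % 2 = 0
    · rw [if_pos h2, div_succ_eq, Nat.add_div_right i hp, div_succ_eq]
      omega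
    · rw [if_neg h2]
      have h5 : 2 ^ j ≤ i := by
        by_contra hcon
        push Not at hcon
        rw [Nat.div_eq_of_lt hcon] at h2
        exact h2 rfl
      have h3 : (i - 2 ^ j) / 2 ^ j = i / 2 ^ j - 1 := by
        have := Nat.sub_mul_div i (2 ^ j) 1
        simpa using this
      have h6 : i / 2 ^ j - 1 + 1 = i / 2 ^ j := by
        have := Nat.div_pos h5 hp
        omega
      rw [div_succ_eq, h3, div_succ_eq]
      generalize i / 2 ^ j = u at *
      omega
  · rw [sw_of_ne h]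

theorem rot_div_self (m b i : ℕ) : rot m b i / 2 ^ m = i / 2 ^ m := by
  by_cases h : i / 2 ^ m = b
  · rw [rot_apply, rotf, if_pos h, (rot_aux h).1, h]
  · rw [rot_of_ne h]

theorem div_of_div {i i' m r : ℕ} (h : i / 2 ^ m = i' / 2 ^ m) (hr : m ≤ r) :
    i / 2 ^ r = i' / 2 ^ r := by
  obtain ⟨d, rfl⟩ := Nat.exists_eq_add_of_le hr
  rw [pow_add, ← Nat.div_div_eq_div_mul, ← Nat.div_div_eq_div_mul, h]

/-- the swap does not change the block at levels above `j` -/
theorem sw_div {j b i m : ℕ} (hm : j + 1 ≤ m) : sw j b i / 2 ^ m = i / 2 ^ m :=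
  div_of_div (sw_div_succ j b i) hm

/-- the rotation does not change the block at levels `≥ m` -/
theorem rot_div {m b i r : ℕ} (hr : m ≤ r) : rot m b i / 2 ^ r = i / 2 ^ r :=
  div_of_div (rot_div_self m b i) hr

theorem map_eq_of_lt {N : ℕ} (π : Equiv.Perm ℕ) (h : ∀ i, π i < 2 ^ N ↔ i < 2 ^ N) :
    (range (2 ^ N)).map π.toEmbedding = range (2 ^ N) := by
  ext i
  simp only [Finset.mem_map_equiv, Finset.mem_range]
  rw [← h (π.symm i), Equiv.apply_symm_apply]

theorem lt_pow_iff {i N : ℕ} : i < 2 ^ N ↔ i / 2 ^ N = 0 := by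
  rw [Nat.div_eq_zero_iff_lt (by positivity)]

theorem map_sw {N j b : ℕ} (hj : j + 1 ≤ N) :
    (range (2 ^ N)).map (sw j b).toEmbedding = range (2 ^ N) :=
  map_eq_of_lt _ fun i => by rw [lt_pow_iff, lt_pow_iff, sw_div hj]

theorem map_rot {N m b : ℕ} (hm : m ≤ N) :
    (range (2 ^ N)).map (rot m b).toEmbedding = range (2 ^ N) :=
  map_eq_of_lt _ fun i => by rw [lt_pow_iff, lt_pow_iff, rot_div hm]

theorem rot_succ_of_lt {m w i : ℕ} (hw : i / 2 ^ m = w) (ht : i % 2 ^ m + 1 < 2 ^ m) :
    rot m w i = i + 1 := by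
  rw [rot_apply, rotf, if_pos hw, Nat.mod_eq_of_lt ht, ← add_assoc, ← hw, Nat.div_add_mod']

/-- powers of the rotation of the block `w` of length `2 ^ m`, by an amount that does not wrap
around -/
theorem rot_pow_of_lt {m w i t : ℕ} (hw : i / 2 ^ m = w) (ht : i % 2 ^ m + t < 2 ^ m) :
    (rot m w ^ t) i = i + t := by
  have hp : 0 < 2 ^ m := by positivity
  induction t with
  | zero => simp
  | succ t ih =>
    rw [pow_succ', Equiv.Perm.mul_apply, ih (by omega)]
    have h1 : (i + t) / 2 ^ m = w ∧ (i + t) % 2 ^ m = i % 2 ^ m + t := by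
      have h2 : i + t = 2 ^ m * w + (i % 2 ^ m + t) := by
        rw [← add_assoc, ← hw, Nat.div_add_mod]
      constructor
      · rw [h2, Nat.mul_add_div hp, Nat.div_eq_of_lt (by omega), add_zero]
      · rw [h2, Nat.mul_add_mod, Nat.mod_eq_of_lt (by omega)]
    rw [rot_succ_of_lt h1.1 (by omega), add_assoc]

theorem rot_pow_of_ne {m w i t : ℕ} (hw : i / 2 ^ m ≠ w) : (rot m w ^ t) i = i := by
  induction t with
  | zero => simp
  | succ t ih => rw [pow_succ', Equiv.Perm.mul_apply, ih, rot_of_ne hw]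

end Vale.Agent.P238
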