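import Vale.Agent.P238.EditH40
import Vale.Agent.P238.Perm

/-! Counting words close to a given word; flips, rotations and half swaps. -/

namespace Vale.Agent.P238

/-- sum over all binary words of length `m` -/
noncomputable def SW : ℕ → (List Bool → ℝ) → ℝ
  | 0, f => f []
  | m + 1, f => SW m (fun y => f (false :: y)) + SW m (fun y => f (true :: y))

lemma SW_mono (m : ℕ) {f g : List Bool → ℝ} (h : ∀ y : List Bool, y.length = m → f y ≤ g y) :
    SW m f ≤ SW m g := by
  induction m generalizing f g with
  | zero => exact h [] rfl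
  | succ m ih =>
    exact add_le_add (ih fun y hy => h _ (by simp [hy])) (ih fun y hy => h _ (by simp [hy]))

lemma SW_congr (m : ℕ) {f g : List Bool → ℝ} (h : ∀ y : List Bool, y.length = m → f y = g y) :
    SW m f = SW m g :=
  le_antisymm (SW_mono m fun y hy => (h y hy).le) (SW_mono m fun y hy => (h y hy).ge)

lemma SW_add (m : ℕ) (f g : List Bool → ℝ) :
    SW m (fun y => f y + g y) = SW m f + SW m g := by
  induction m generalizing f g with
  | zero => rfl
  | succ m ih => simp only [SW, ih]; ring

lemma SW_mul (m : ℕ) (c : ℝ) (f : List Bool → ℝ) :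
    SW m (fun y => c * f y) = c * SW m f := by
  induction m generalizing f with
  | zero => rfl
  | succ m ih => simp only [SW, ih]; ring

lemma SW_const (m : ℕ) (c : ℝ) : SW m (fun _ => c) = 2 ^ m * c := by
  induction m with
  | zero => simp [SW]
  | succ m ih => simp only [SW, ih]; ring

lemma SW_nonneg (m : ℕ) {f : List Bool → ℝ} (h : ∀ y : List Bool, y.length = m → 0 ≤ f y) :
    0 ≤ SW m f := by
  have := SW_mono m (f := fun _ => 0) (g := f) h
  rwa [SW_const, mul_zero] at this

lemma SW_append (a b : ℕ) (f : List Bool → ℝ) :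
    SW (a + b) f = SW a (fun u => SW b (fun v => f (u ++ v))) := by
  induction a generalizing f with
  | zero => simp [SW]
  | succ a ih =>
    have e : a + 1 + b = (a + b) + 1 := by omega
    rw [e]
    simp only [SW, ih, List.cons_append]

lemma sum_ofFn (n : ℕ) (f : List Bool → ℝ) :
    ∑ x : Fin n → Bool, f (List.ofFn x) = SW n f := by
  induction n generalizing f with
  | zero => simp [SW]
  | succ n ih =>
    rw [← (Fin.consEquiv (fun _ : Fin (n + 1) => Bool)).sum_comp, Fintype.sum_prod_type]
    simp only [Fintype.sum_bool, Fin.consEquiv, Equiv.coe_fn_mk, List.ofFn_succ, Fin.cons_zero,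
      Fin.cons_succ, SW]
    rw [ih (fun y => f (true :: y)), ih (fun y => f (false :: y)), add_comm]

/-- sum over all alignments of `θ ^ cost` -/
noncomputable def Wt (θ : ℝ) : List Bool → List Bool → ℝ
  | [], y => θ ^ y.length
  | a :: x, [] => θ ^ (a :: x).length
  | a :: x, b :: y => θ * Wt θ x (b :: y) + θ * Wt θ (a :: x) y +
      (if a = b then 1 else θ) * Wt θ x y
  termination_by x y => x.length + y.length

lemma Wt_nil_left (θ : ℝ) (y : List Bool) : Wt θ [] y = θ ^ y.length := by
  rw [Wt]

lemma Wt_nil_right (θ : ℝ) (x : List Bool) : Wt θ x [] = θ ^ x.length := by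
  cases x with
  | nil => rw [Wt]
  | cons a x => rw [Wt]

lemma Wt_cons (θ : ℝ) (a b : Bool) (x y : List Bool) :
    Wt θ (a :: x) (b :: y) = θ * Wt θ x (b :: y) + θ * Wt θ (a :: x) y +
      (if a = b then 1 else θ) * Wt θ x y := by
  rw [Wt]

lemma Wt_nonneg {θ : ℝ} (h0 : 0 ≤ θ) (x y : List Bool) : 0 ≤ Wt θ x y := by
  induction x generalizing y with
  | nil => rw [Wt_nil_left]; positivity
  | cons a x ih =>
    induction y with
    | nil => rw [Wt_nil_right]; positivity
    | cons b y ih2 =>
      rw [Wt_cons]
      have h3 : (0 : ℝ) ≤ if a = b then 1 else θ := by split_ifs <;> linarith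
      have := ih (b :: y)
      have := ih y
      positivity

lemma pow_le_Wt {θ : ℝ} (h0 : 0 ≤ θ) (h1 : θ ≤ 1) {e : ℕ} {x y : List Bool} (h : Al e x y) :
    θ ^ e ≤ Wt θ x y := by
  induction h with
  | nil e => rw [Wt_nil_left]; simpa using pow_le_one₀ h0 h1
  | @mat e x y a h ih =>
    rw [Wt_cons, if_pos rfl, one_mul]
    have h1 := Wt_nonneg h0 x (a :: y)
    have h2 := Wt_nonneg h0 (a :: x) y
    have h3 := mul_nonneg h0 h1
    have h4 := mul_nonneg h0 h2
    linarith
  | @sub e x y a b h ih =>
    rw [Wt_cons]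
    have h1' := Wt_nonneg h0 x (b :: y)
    have h2 := Wt_nonneg h0 (a :: x) y
    have h3 := mul_nonneg h0 h1'
    have h4 := mul_nonneg h0 h2
    have h5 : θ ≤ if a = b then 1 else θ := by split_ifs <;> linarith
    have h6 : θ * Wt θ x y ≤ (if a = b then 1 else θ) * Wt θ x y :=
      mul_le_mul_of_nonneg_right h5 (Wt_nonneg h0 x y)
    have h7 : θ ^ (e + 1) ≤ θ * Wt θ x y := by
      rw [pow_succ']; exact mul_le_mul_of_nonneg_left ih h0
    linarith
  | @del e x y a h ih =>
    have h7 : θ ^ (e + 1) ≤ θ * Wt θ x y := by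
      rw [pow_succ']; exact mul_le_mul_of_nonneg_left ih h0
    cases y with
    | nil =>
      rw [Wt_nil_right] at h7 ⊢
      rw [List.length_cons, pow_succ' θ x.length]
      exact h7
    | cons b y =>
      rw [Wt_cons]
      have h2 := Wt_nonneg h0 (a :: x) y
      have h4 := mul_nonneg h0 h2
      have h5 : (0 : ℝ) ≤ if a = b then 1 else θ := by split_ifs <;> linarith
      have h6 := mul_nonneg h5 (Wt_nonneg h0 x y)
      linarith
  | @ins e x y b h ih =>
    have h7 : θ ^ (e + 1) ≤ θ * Wt θ x y := by
      rw [pow_succ']; exact mul_le_mul_of_nonneg_left ih h0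
    cases x with
    | nil =>
      rw [Wt_nil_left] at h7 ⊢
      rw [List.length_cons, pow_succ' θ y.length]
      exact h7
    | cons a x =>
      rw [Wt_cons]
      have h2 := Wt_nonneg h0 x (b :: y)
      have h4 := mul_nonneg h0 h2
      have h5 : (0 : ℝ) ≤ if a = b then 1 else θ := by split_ifs <;> linarith
      have h6 := mul_nonneg h5 (Wt_nonneg h0 x y)
      linarith

lemma SW_Wt_le (x : List Bool) (m : ℕ) :
    SW m (fun y => Wt (1 / 16) x y) ≤ (8 / 7) ^ (x.length + m) := by
  induction x generalizing m with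
  | nil =>
    have e1 : SW m (fun y => Wt (1 / 16) [] y) = 2 ^ m * (1 / 16) ^ m := by
      rw [← SW_const]
      exact SW_congr m fun y hy => by rw [Wt_nil_left, hy]
    rw [e1, ← mul_pow, List.length_nil, zero_add]
    exact pow_le_pow_left₀ (by norm_num) (by norm_num) _
  | cons a x ih =>
    induction m with
    | zero =>
      simp only [SW, Wt_nil_right, add_zero]
      exact pow_le_pow_left₀ (by norm_num) (by norm_num) _
    | succ m ih2 =>
      -- recursion
      have h1 := ih (m + 1)
      have h2 := ih m
      have e1 : SW (m + 1) (fun y => Wt (1 / 16) (a :: x) y) =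
          (1 / 16) * SW (m + 1) (fun y => Wt (1 / 16) x y) +
          2 * (1 / 16) * SW m (fun y => Wt (1 / 16) (a :: x) y) +
          (1 + 1 / 16) * SW m (fun y => Wt (1 / 16) x y) := by
        simp only [SW, Wt_cons, SW_add, SW_mul]
        cases a <;> simp <;> ring
      rw [e1]
      have e2 : (8 / 7 : ℝ) ^ (x.length + (m + 1)) = (8 / 7) * (8 / 7) ^ (x.length + m) := by
        rw [← pow_succ']; congr 1
      have e3 : (8 / 7 : ℝ) ^ ((a :: x).length + m) = (8 / 7) * (8 / 7) ^ (x.length + m) := by
        rw [← pow_succ', List.length_cons]; congr 1; omega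
      have e4 : (8 / 7 : ℝ) ^ ((a :: x).length + (m + 1)) =
          (8 / 7) * (8 / 7) * (8 / 7) ^ (x.length + m) := by
        rw [mul_assoc, ← pow_succ', ← pow_succ', List.length_cons]; congr 1; omega
      rw [e2] at h1
      rw [e3] at ih2
      rw [e4]
      have h5 : (0 : ℝ) ≤ (8 / 7) ^ (x.length + m) := by positivity
      nlinarith

/-- few pairs of words are close -/
lemma close_pairs (L R : ℕ) :
    SW L (fun A => SW L (fun A' => if ED A A' ≤ R then (1 : ℝ) else 0)) ≤
      2 ^ L * (16 ^ R * ((8 / 7) ^ 2) ^ L) := by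
  rw [← SW_const]
  refine SW_mono L fun A hA => ?_
  have h1 : SW L (fun A' => if ED A A' ≤ R then (1 : ℝ) else 0) ≤
      SW L (fun A' => 16 ^ R * Wt (1 / 16) A A') := by
    refine SW_mono L fun A' _ => ?_
    split_ifs with h
    · have h2 := pow_le_Wt (θ := 1 / 16) (by norm_num) (by norm_num) ((al_ED A A').mono h)
      have h3 : (16 : ℝ) ^ R * (1 / 16) ^ R = 1 := by
        rw [← mul_pow]; norm_num
      calc (1 : ℝ) = (16 : ℝ) ^ R * (1 / 16) ^ R := h3.symm
        _ ≤ _ := mul_le_mul_of_nonneg_left h2 (by positivity)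
    · have := Wt_nonneg (θ := 1 / 16) (by norm_num) A A'
      positivity
  refine h1.trans ?_
  rw [SW_mul]
  refine mul_le_mul_of_nonneg_left ?_ (by positivity)
  have h4 := SW_Wt_le A L
  rw [hA, ← two_mul, pow_mul] at h4
  exact h4

lemma num_bound (L : ℕ) (hL : 3 ≤ L) :
    (16 : ℝ) ^ (L / 16) * ((8 / 7) ^ 2) ^ L ≤ 2 ^ L / 2 := by
  have h1 : (16 : ℝ) ^ (L / 16) ≤ (119 / 100) ^ L := by
    calc (16 : ℝ) ^ (L / 16) ≤ ((119 / 100) ^ 16) ^ (L / 16) :=
          pow_le_pow_left₀ (by norm_num) (by norm_num) _
      _ = (119 / 100) ^ (16 * (L / 16)) := by rw [← pow_mul]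
      _ ≤ (119 / 100) ^ L := pow_le_pow_right₀ (by norm_num) (Nat.mul_div_le L 16)
  have h2 : (16 : ℝ) ^ (L / 16) * ((8 / 7) ^ 2) ^ L ≤ (119 / 100) ^ L * ((8 / 7) ^ 2) ^ L :=
    mul_le_mul_of_nonneg_right h1 (by positivity)
  refine h2.trans ?_
  have h3 : ((119 / 100 : ℝ)) ^ L * ((8 / 7) ^ 2) ^ L ≤ (39 / 50) ^ L * 2 ^ L := by
    rw [← mul_pow, ← mul_pow]
    exact pow_le_pow_left₀ (by norm_num) (by norm_num) _
  refine h3.trans ?_
  have h4 : ((39 / 50 : ℝ)) ^ L ≤ (39 / 50) ^ 3 :=
    pow_le_pow_of_le_one (by norm_num) (by norm_num) hL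
  have h5 : ((39 / 50 : ℝ)) ^ L ≤ 1 / 2 := h4.trans (by norm_num)
  have h6 : (0 : ℝ) < 2 ^ L := by positivity
  nlinarith

/-- two random words of length `L` are at average distance at least `L / 32` -/
lemma mean_ED (L : ℕ) (hL : 3 ≤ L) :
    2 ^ L * (2 ^ L * ((L : ℝ) / 32)) ≤
      SW L (fun A => SW L (fun A' => (ED A A' : ℝ))) := by
  set R := L / 16 with hR
  have h1 : SW L (fun A => SW L (fun A' => ((R : ℝ) + 1) * (1 - (if ED A A' ≤ R then (1 : ℝ) else 0))))
      ≤ SW L (fun A => SW L (fun A' => (ED A A' : ℝ))) := by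
    refine SW_mono L fun A _ => SW_mono L fun A' _ => ?_
    split_ifs with h
    · simp
    · have : R + 1 ≤ ED A A' := by omega
      have : ((R : ℝ) + 1) ≤ ED A A' := by exact_mod_cast this
      linarith
  refine le_trans ?_ h1
  have e1 : SW L (fun A => SW L (fun A' =>
      ((R : ℝ) + 1) * (1 - (if ED A A' ≤ R then (1 : ℝ) else 0)))) =
      ((R : ℝ) + 1) * (2 ^ L * 2 ^ L -
        SW L (fun A => SW L (fun A' => (if ED A A' ≤ R then (1 : ℝ) else 0)))) := by
    have e2 : ∀ A, SW L (fun A' => ((R : ℝ) + 1) * (1 - (if ED A A' ≤ R then (1 : ℝ) else 0))) =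
        ((R : ℝ) + 1) * (2 ^ L + (-1) * SW L (fun A' => (if ED A A' ≤ R then (1 : ℝ) else 0))) := by
      intro A
      rw [SW_mul, ← SW_mul L (-1)]
      congr 1
      rw [show (2 : ℝ) ^ L = SW L (fun _ => 1) by rw [SW_const, mul_one], ← SW_add]
      exact SW_congr L fun y _ => by ring
    simp only [e2]
    rw [SW_mul, SW_add, SW_mul, SW_const]
    ring
  rw [e1]
  have h2 := close_pairs L R
  have h3 := num_bound L hL
  rw [← hR] at h3
  have h4 : (0 : ℝ) < 2 ^ L := by positivity
  have h5 : (L : ℝ) / 16 ≤ (R : ℝ) + 1 := by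
    have : L ≤ 16 * (R + 1) := by omega
    have : (L : ℝ) ≤ 16 * (R + 1) := by exact_mod_cast this
    linarith
  have h6 : SW L (fun A => SW L (fun A' => if ED A A' ≤ R then (1 : ℝ) else 0)) ≤
      2 ^ L * (2 ^ L / 2) := h2.trans (mul_le_mul_of_nonneg_left h3 h4.le)
  have h7 : (2 : ℝ) ^ L * 2 ^ L / 2 ≤ 2 ^ L * 2 ^ L -
      SW L (fun A => SW L (fun A' => (if ED A A' ≤ R then (1 : ℝ) else 0))) := by
    linarith
  have h8 : (0 : ℝ) ≤ 2 ^ L * 2 ^ L / 2 := by positivity
  have h9 : (L : ℝ) / 16 * (2 ^ L * 2 ^ L / 2) ≤ ((R : ℝ) + 1) * (2 ^ L * 2 ^ L -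
      SW L (fun A => SW L (fun A' => (if ED A A' ≤ R then (1 : ℝ) else 0)))) :=
    mul_le_mul h5 h7 h8 (by positivity)
  calc (2 : ℝ) ^ L * (2 ^ L * ((L : ℝ) / 32)) = (L : ℝ) / 16 * (2 ^ L * 2 ^ L / 2) := by ring
    _ ≤ _ := h9

/-! ### positions -/

/-- swap of the two halves of `[s, s + 2L)` -/
def swapN (s L i : ℕ) : ℕ :=
  if s ≤ i ∧ i < s + L then i + L else if s + L ≤ i ∧ i < s + 2 * L then i - L else i

/-- cyclic rotation of `[s, s + m)` by one -/
def rotN (s m i : ℕ) : ℕ :=
  if s ≤ i ∧ i < s + m then (if i + 1 < s + m then i + 1 else s) else i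

/-- the word of a function -/
def fw (n : ℕ) (w : ℕ → Bool) : List Bool := (List.range n).map w

lemma length_fw (n : ℕ) (w : ℕ → Bool) : (fw n w).length = n := by simp [fw]

lemma getElem_fw {n : ℕ} {w : ℕ → Bool} {i : ℕ} (h : i < (fw n w).length) :
    (fw n w)[i] = w i := by simp [fw]

lemma fw_swap {n s L : ℕ} (h : s + 2 * L ≤ n) (w : ℕ → Bool) :
    fw n (fun i => w (swapN s L i)) =
      (fw n w).take s ++ ((((fw n w).drop (s + L)).take L) ++
        ((((fw n w).drop s).take L) ++ (fw n w).drop (s + 2 * L))) := by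
  apply List.ext_getElem
  · simp only [length_fw, List.length_append, List.length_take, List.length_drop]; omega
  intro i h1 h2
  have hi : i < n := by simpa [length_fw] using h1
  rw [getElem_fw]
  have key : ∀ j : ℕ, j = swapN s L i → w (swapN s L i) = w j := by
    intro j hj
    rw [hj]
  by_cases c1 : i < s
  · rw [List.getElem_append_left (by simp only [length_fw, List.length_take]; omega),
      List.getElem_take, getElem_fw]
    apply key
    simp only [swapN]
    rw [if_neg (by omega), if_neg (by omega)]
  rw [List.getElem_append_right (by simp only [length_fw, List.length_take]; omega)]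
  by_cases c2 : i < s + L
  · rw [List.getElem_append_left (by
      simp only [length_fw, List.length_take, List.length_drop]; omega),
      List.getElem_take, List.getElem_drop, getElem_fw]
    apply key
    simp only [swapN, List.length_take, length_fw]
    rw [if_pos (by omega)]
    omega
  rw [List.getElem_append_right (by
    simp only [length_fw, List.length_take, List.length_drop]; omega)]
  by_cases c3 : i < s + 2 * L
  · rw [List.getElem_append_left (by
      simp only [length_fw, List.length_take, List.length_drop]; omega),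
      List.getElem_take, List.getElem_drop, getElem_fw]
    apply key
    simp only [swapN, List.length_take, length_fw, List.length_drop]
    rw [if_neg (by omega), if_pos (by omega)]
    omega
  rw [List.getElem_append_right (by
    simp only [length_fw, List.length_take, List.length_drop]; omega), List.getElem_drop,
    getElem_fw]
  apply key
  simp only [swapN, List.length_take, length_fw, List.length_drop]
  rw [if_neg (by omega), if_neg (by omega)]
  omega

lemma fw_rot {n s m : ℕ} (hm : 0 < m) (h : s + m ≤ n) (w : ℕ → Bool) :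
    fw n (fun i => w (rotN s m i)) =
      (fw n w).take s ++ (((fw n w).drop (s + 1)).take (m - 1) ++
        (w s :: (fw n w).drop (s + m))) := by
  apply List.ext_getElem
  · simp only [length_fw, List.length_append, List.length_take, List.length_drop,
      List.length_cons]; omega
  intro i h1 h2
  have hi : i < n := by simpa [length_fw] using h1
  rw [getElem_fw]
  have key : ∀ j : ℕ, j = rotN s m i → w (rotN s m i) = w j := by
    intro j hj
    rw [hj]
  by_cases c1 : i < s
  · rw [List.getElem_append_left (by simp only [length_fw, List.length_take]; omega),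
      List.getElem_take, getElem_fw]
    apply key
    simp only [rotN]
    rw [if_neg (by omega)]
  rw [List.getElem_append_right (by simp only [length_fw, List.length_take]; omega)]
  by_cases c2 : i + 1 < s + m
  · rw [List.getElem_append_left (by
      simp only [length_fw, List.length_take, List.length_drop]; omega),
      List.getElem_take, List.getElem_drop, getElem_fw]
    apply key
    simp only [rotN, List.length_take, length_fw]
    rw [if_pos (by omega), if_pos (by omega)]
    omega
  rw [List.getElem_append_right (by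
    simp only [length_fw, List.length_take, List.length_drop]; omega), List.getElem_cons]
  split_ifs with c3
  · apply key
    simp only [List.length_take, length_fw, List.length_drop] at c3
    simp only [rotN]
    rw [if_pos (by omega), if_neg (by omega)]
  · rw [List.getElem_drop, getElem_fw]
    apply key
    simp only [List.length_take, length_fw, List.length_drop] at c3
    simp only [rotN, List.length_take, length_fw, List.length_drop]
    rw [if_neg (by omega)]
    omega

lemma fw_drop_cons {n : ℕ} (w : ℕ → Bool) {s : ℕ} (hs : s < n) :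
    (fw n w).drop s = w s :: (fw n w).drop (s + 1) := by
  rw [List.drop_eq_getElem_cons (by rw [length_fw]; exact hs), getElem_fw]

/-- rotating an interval by one costs at most two edits -/
theorem ED_rotN_le {n s m : ℕ} (hm : 0 < m) (h : s + m ≤ n) (w : ℕ → Bool) :
    ED (fw n w) (fw n (fun i => w (rotN s m i))) ≤ 2 := by
  rw [fw_rot hm h w]
  apply ED_le_of_al
  have e1 : fw n w = (fw n w).take s ++ (w s ::
      (((fw n w).drop (s + 1)).take (m - 1) ++ (fw n w).drop (s + m))) := by
    have e2 := fw_drop_cons (n := n) w (s := s) (by omega)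
    have e3 : (fw n w).drop (s + 1) =
        ((fw n w).drop (s + 1)).take (m - 1) ++ (fw n w).drop (s + m) := by
      have := List.take_append_drop (m - 1) ((fw n w).drop (s + 1))
      rw [List.drop_drop] at this
      rw [show s + m = s + 1 + (m - 1) by omega]
      exact this.symm
    rw [← e3, ← e2, List.take_append_drop]
  have a1 : Al 1 (w s ::
      (((fw n w).drop (s + 1)).take (m - 1) ++ (fw n w).drop (s + m)))
      (((fw n w).drop (s + 1)).take (m - 1) ++ (fw n w).drop (s + m)) :=
    Al.del _ (Al.refl 0 _)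
  have a2 : Al 1 (((fw n w).drop (s + 1)).take (m - 1) ++ (fw n w).drop (s + m))
      (((fw n w).drop (s + 1)).take (m - 1) ++
        (w s :: (fw n w).drop (s + m))) := by
    have := (Al.refl 0 (((fw n w).drop (s + 1)).take (m - 1))).append
      (Al.ins (w s) (Al.refl 0 ((fw n w).drop (s + m))))
    simpa using this
  have a3 := (Al.refl 0 ((fw n w).take s)).append (a1.trans a2)
  rw [← e1] at a3
  simpa using a3

lemma fw_split {n : ℕ} (w : ℕ → Bool) {i : ℕ} (hi : i < n) :
    fw n w = (fw n w).take i ++ (w i :: (fw n w).drop (i + 1)) := by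
  rw [← fw_drop_cons w hi, List.take_append_drop]

/-- changing one coordinate costs at most one edit -/
theorem ED_fw_le_one {n : ℕ} (w w' : ℕ → Bool) (i : ℕ) (h : ∀ j, j ≠ i → w j = w' j) :
    ED (fw n w) (fw n w') ≤ 1 := by
  apply ED_le_of_al
  by_cases hi : i < n
  · have e1 : (fw n w).take i = (fw n w').take i := by
      apply List.ext_getElem
      · simp [length_fw]
      intro j h1 h2
      rw [List.getElem_take, List.getElem_take, getElem_fw, getElem_fw]
      apply h
      rw [List.length_take, length_fw] at h1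
      omega
    have e2 : (fw n w).drop (i + 1) = (fw n w').drop (i + 1) := by
      apply List.ext_getElem
      · simp [length_fw]
      intro j h1 h2
      rw [List.getElem_drop, List.getElem_drop, getElem_fw, getElem_fw]
      apply h
      omega
    rw [fw_split w hi, fw_split w' hi, e1, e2]
    have := (Al.refl 0 ((fw n w').take i)).append
      (Al.sub (w i) (w' i) (Al.refl 0 ((fw n w').drop (i + 1))))
    simpa using this
  · have : fw n w = fw n w' := by
      apply List.ext_getElem
      · simp [length_fw]
      intro j h1 h2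
      rw [getElem_fw, getElem_fw]
      apply h
      rw [length_fw] at h1
      omega
    rw [this]
    exact Al.refl _ _

/-- the window inequality -/
lemma window_le {n s L : ℕ} (h : s + 2 * L ≤ n) (w : ℕ → Bool) :
    ED (((fw n w).drop s).take L) (((fw n w).drop (s + L)).take L) ≤
      ED (fw n w) (fw n (fun i => w (swapN s L i))) := by
  have a1 := al_ED (fw n w) (fw n (fun i => w (swapN s L i)))
  have a2 := (a1.drop (by simp [length_fw]) s).take (by simp [length_fw]) L
  have e1 : ((fw n (fun i => w (swapN s L i))).drop s).take L =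
      ((fw n w).drop (s + L)).take L := by
    rw [fw_swap h w]
    rw [List.drop_append_of_le_length (by simp only [List.length_take, length_fw]; omega)]
    rw [List.drop_of_length_le (by simp only [List.length_take, length_fw]; omega),
      List.nil_append]
    rw [List.take_append_of_le_length (by
      simp only [List.length_take, length_fw, List.length_drop]; omega)]
    rw [List.take_take, min_self]
  rw [e1] at a2
  exact ED_le_of_al a2

/-- average over all words of the distance of two adjacent windows -/
theorem window_sum {n s L : ℕ} (hL : 3 ≤ L) (h : s + 2 * L ≤ n) :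
    2 ^ n * ((L : ℝ) / 32) ≤
      SW n (fun l => (ED ((l.drop s).take L) ((l.drop (s + L)).take L) : ℝ)) := by
  obtain ⟨r, rfl⟩ : ∃ r, n = s + (L + (L + r)) := ⟨n - s - 2 * L, by omega⟩
  rw [SW_append]
  have h2 : SW s (fun u => SW (L + (L + r)) (fun v =>
      (ED (((u ++ v).drop s).take L) (((u ++ v).drop (s + L)).take L) : ℝ))) =
      SW s (fun _ => SW L (fun A => SW L (fun A' => SW r (fun _ => (ED A A' : ℝ))))) := by
    refine SW_congr s fun u hu => ?_
    rw [SW_append]
    refine SW_congr L fun A hA => ?_
    rw [SW_append]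
    refine SW_congr L fun A' hA' => SW_congr r fun v _ => ?_
    have e1 : ((u ++ (A ++ (A' ++ v))).drop s).take L = A := by
      rw [List.drop_append_of_le_length hu.ge, List.drop_of_length_le hu.le, List.nil_append,
        List.take_append_of_le_length hA.ge, List.take_of_length_le hA.le]
    have e2 : ((u ++ (A ++ (A' ++ v))).drop (s + L)).take L = A' := by
      rw [← List.drop_drop, List.drop_append_of_le_length hu.ge, List.drop_of_length_le hu.le,
        List.nil_append, List.drop_append_of_le_length hA.ge, List.drop_of_length_le hA.le,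
        List.nil_append, List.take_append_of_le_length hA'.ge, List.take_of_length_le hA'.le]
    rw [e1, e2]
  rw [h2, SW_const]
  have h3 : SW L (fun A => SW L (fun A' => SW r (fun _ => (ED A A' : ℝ)))) =
      2 ^ r * SW L (fun A => SW L (fun A' => (ED A A' : ℝ))) := by
    simp only [SW_const, SW_mul]
  rw [h3]
  have h4 := mean_ED L hL
  have h5 : (0 : ℝ) < 2 ^ s := by positivity
  have h6 : (0 : ℝ) < 2 ^ r := by positivity
  calc (2 : ℝ) ^ (s + (L + (L + r))) * ((L : ℝ) / 32)
      = 2 ^ s * (2 ^ r * (2 ^ L * (2 ^ L * ((L : ℝ) / 32)))) := by ring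
    _ ≤ _ := by
      refine mul_le_mul_of_nonneg_left (mul_le_mul_of_nonneg_left h4 h6.le) h5.le

/-! ### the words `wd n x` -/

lemma wd_eq_fw (n : ℕ) (x : Finset ℕ) : wd n x = fw n (fun i => decide (i ∈ x)) := rfl

lemma fw_succ (n : ℕ) (w : ℕ → Bool) : fw (n + 1) w = fw n w ++ [w n] := by
  simp [fw, List.range_succ]

lemma Ex_wd (M : ℕ) (F : List Bool → ℝ) :
    Ex (1 / 2) (Finset.range M) (fun x => F (wd M x)) = (1 / 2) ^ M * SW M F := by
  induction M generalizing F with
  | zero => simp [Ex_empty, SW, wd]
  | succ M ih =>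
    have hM : M ∉ Finset.range M := by simp
    rw [Finset.range_add_one, Ex_insert _ hM]
    have e1 : Ex (1 / 2) (Finset.range M) (fun x => F (wd (M + 1) x)) =
        Ex (1 / 2) (Finset.range M) (fun x => (fun l => F (l ++ [false])) (wd M x)) := by
      refine Ex_congr fun x hx => ?_
      simp only
      rw [wd_eq_fw, fw_succ, wd_eq_fw]
      have : decide (M ∈ x) = false := decide_eq_false fun h => hM (hx h)
      rw [this]
    have e2 : Ex (1 / 2) (Finset.range M) (fun x => F (wd (M + 1) (insert M x))) =
        Ex (1 / 2) (Finset.range M) (fun x => (fun l => F (l ++ [true])) (wd M x)) := by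
      refine Ex_congr fun x hx => ?_
      simp only
      rw [wd_eq_fw, fw_succ, wd_eq_fw]
      have h1 : decide (M ∈ insert M x) = true := decide_eq_true (Finset.mem_insert_self M x)
      rw [h1]
      congr 2
      unfold fw
      refine List.map_congr_left fun i hi => ?_
      rw [List.mem_range] at hi
      have : i ≠ M := by omega
      simp [Finset.mem_insert, this]
    rw [e1, e2, ih (fun l => F (l ++ [false])), ih (fun l => F (l ++ [true])), SW_append M 1]
    have e3 : SW M (fun u => SW 1 (fun v => F (u ++ v))) =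
        SW M (fun l => F (l ++ [false])) + SW M (fun l => F (l ++ [true])) := by
      rw [← SW_add]
      rfl
    rw [e3, pow_succ]
    ring

lemma swf_eq_swapN (j b i : ℕ) : swf j b i = swapN (b * 2 ^ (j + 1)) (2 ^ j) i := by
  have hp : 0 < 2 ^ j := by positivity
  unfold swf swapN
  have e1 : 2 ^ (j + 1) = 2 * 2 ^ j := by rw [pow_succ]; ring
  have h1 := Nat.div_add_mod i (2 ^ j)
  have h2 := Nat.mod_lt i hp
  have h3 : i / 2 ^ (j + 1) = i / 2 ^ j / 2 := div_succ_eq j i
  rw [h3, e1]
  generalize 2 ^ j = P at *
  generalize i % P = t at *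
  generalize i / P = u at *
  subst h1
  by_cases hb : u / 2 = b
  · rw [if_pos hb]
    by_cases hu : u % 2 = 0
    · have : u = 2 * b := by omega
      subst this
      rw [if_pos hu, if_pos]
      constructor
      · nlinarith
      · nlinarith
    · have : u = 2 * b + 1 := by omega
      subst this
      rw [if_neg hu, if_neg, if_pos]
      · constructor
        · nlinarith
        · nlinarith
      · intro h
        nlinarith [h.2]
  · rw [if_neg hb, if_neg, if_neg]
    · rintro ⟨h4, h5⟩
      apply hb
      have : 2 * b ≤ u := by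
        by_contra hcon
        push Not at hcon
        have : u + 1 ≤ 2 * b := hcon
        nlinarith
      have : u < 2 * b + 2 := by
        by_contra hcon
        push Not at hcon
        nlinarith
      omega
    · rintro ⟨h4, h5⟩
      apply hb
      have : 2 * b ≤ u := by
        by_contra hcon
        push Not at hcon
        have : u + 1 ≤ 2 * b := hcon
        nlinarith
      have : u < 2 * b + 2 := by
        by_contra hcon
        push Not at hcon
        nlinarith
      omega

lemma rotf_eq_rotN (m b i : ℕ) : rotf m b i = rotN (b * 2 ^ m) (2 ^ m) i := by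
  have hp : 0 < 2 ^ m := by positivity
  unfold rotf rotN
  have h1 := Nat.div_add_mod i (2 ^ m)
  have h2 := Nat.mod_lt i hp
  generalize 2 ^ m = P at *
  have e2 : (i % P + 1) % P = if i % P + 1 < P then i % P + 1 else 0 := by
    split_ifs with h
    · exact Nat.mod_eq_of_lt h
    · have : i % P + 1 = P := by omega
      rw [this, Nat.mod_self]
  rw [e2]
  generalize i % P = t at *
  generalize i / P = u at *
  subst h1
  by_cases hb : u = b
  · subst hb
    rw [if_pos rfl, if_pos (show u * P ≤ P * u + t ∧ P * u + t < u * P + P from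
      ⟨by nlinarith, by nlinarith⟩)]
    by_cases ht : t + 1 < P
    · rw [if_pos ht, if_pos (show P * u + t + 1 < u * P + P by nlinarith)]
      ring
    · rw [if_neg ht, if_neg (show ¬ P * u + t + 1 < u * P + P from fun h => ht (by nlinarith))]
      ring
  · rw [if_neg hb, if_neg]
    rintro ⟨h4, h5⟩
    apply hb
    have : b ≤ u := by
      by_contra hcon
      push Not at hcon
      have : u + 1 ≤ b := hcon
      nlinarith
    have : u < b + 1 := by
      by_contra hcon
      push Not at hcon
      nlinarith
    omega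

lemma wd_map_sw (n j b : ℕ) (x : Finset ℕ) :
    wd n (x.map (sw j b).toEmbedding) =
      fw n (fun i => (fun i => decide (i ∈ x)) (swapN (b * 2 ^ (j + 1)) (2 ^ j) i)) := by
  unfold wd fw
  refine List.map_congr_left fun i _ => ?_
  simp only [Finset.mem_map_equiv, sw_symm, sw_apply, swf_eq_swapN]

/-- swapping the two halves of a dyadic block costs on average a constant fraction of its
length -/
theorem far_h40 {n N j b : ℕ} (hj : 2 ≤ j) (hjN : j + 1 ≤ N) (hn : 2 ^ N ≤ n)
    (hb : b < 2 ^ (N - j - 1)) :
    (2 ^ j : ℝ) / 32 ≤ Ex (1 / 2) (Finset.range (2 ^ N))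
      (fun x => (ED (wd n x) (wd n (x.map (sw j b).toEmbedding)) : ℝ)) := by
  have hL : 3 ≤ 2 ^ j := by
    calc 3 ≤ 2 ^ 2 := by norm_num
      _ ≤ 2 ^ j := Nat.pow_le_pow_right (by norm_num) hj
  have hs : b * 2 ^ (j + 1) + 2 * 2 ^ j ≤ 2 ^ N := by
    have h1 : (b + 1) * 2 ^ (j + 1) ≤ 2 ^ (N - j - 1) * 2 ^ (j + 1) := Nat.mul_le_mul_right _ hb
    rw [← pow_add, show N - j - 1 + (j + 1) = N by omega] at h1
    have e1 : 2 ^ (j + 1) = 2 * 2 ^ j := by rw [pow_succ]; ring
    rw [e1] at h1 ⊢
    linarith
  set s := b * 2 ^ (j + 1) with hsdef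
  have h1 : ∀ x ⊆ Finset.range (2 ^ N),
      ((fun l : List Bool => (ED ((l.drop s).take (2 ^ j)) ((l.drop (s + 2 ^ j)).take (2 ^ j)) : ℝ))
        (wd (2 ^ N) x)) ≤
      (ED (wd n x) (wd n (x.map (sw j b).toEmbedding)) : ℝ) := by
    intro x _
    simp only
    rw [wd_map_sw, wd_eq_fw n, wd_eq_fw (2 ^ N)]
    have h2 := window_le (n := n) (s := s) (L := 2 ^ j) (by omega) (fun i => decide (i ∈ x))
    have h3 : ∀ t, t + 2 ^ j ≤ 2 ^ N →
        ((fw n (fun i => decide (i ∈ x))).drop t).take (2 ^ j) =
        ((fw (2 ^ N) (fun i => decide (i ∈ x))).drop t).take (2 ^ j) := by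
      intro t ht
      apply List.ext_getElem
      · simp only [List.length_take, List.length_drop, length_fw]; omega
      intro i h4 h5
      rw [List.getElem_take, List.getElem_take, List.getElem_drop, List.getElem_drop,
        getElem_fw, getElem_fw]
    rw [← h3 s (by omega), ← h3 (s + 2 ^ j) (by omega)]
    exact_mod_cast h2
  refine le_trans ?_ (Ex_mono (by norm_num) (by norm_num) h1)
  rw [Ex_wd (2 ^ N) (fun l : List Bool =>
    (ED ((l.drop s).take (2 ^ j)) ((l.drop (s + 2 ^ j)).take (2 ^ j)) : ℝ))]
  have h2 := window_sum (n := 2 ^ N) (s := s) (L := 2 ^ j) hL hs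
  have h3 : (0 : ℝ) < (1 / 2) ^ 2 ^ N := by positivity
  have h4 : ((1 / 2 : ℝ)) ^ 2 ^ N * 2 ^ 2 ^ N = 1 := by
    rw [← mul_pow]; norm_num
  have h5 := mul_le_mul_of_nonneg_left h2 h3.le
  rw [← mul_assoc, h4, one_mul] at h5
  push_cast at h5
  exact h5

end Vale.Agent.P238
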