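import Vale.Agent.P238.EditPath
import Vale.Agent.P238.FarH40

/-!
# P238: cheap moves
-/

namespace Vale.Agent.P238

open Finset

theorem ED_le_of_path {α : Type*} {k : ℕ} {x y : List α} (h : EditPath k x y) : ED x y ≤ k :=
  Nat.sInf_le h

/-- one flip -/
theorem ED_flip (n i : ℕ) (x : Finset ℕ) : ED (wd n (insert i x)) (wd n x) ≤ 1 := by
  rw [wd_eq_fw, wd_eq_fw]
  refine ED_fw_le_one _ _ i fun j hj => ?_
  simp [Finset.mem_insert, hj]

/-- one rotation of a dyadic block -/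
theorem ED_rot {n N m b : ℕ} (hn : 2 ^ N ≤ n) (hm : m ≤ N) (hb : b < 2 ^ (N - m))
    (x : Finset ℕ) : ED (wd n x) (wd n (x.map (rot m b).toEmbedding)) ≤ 2 := by
  have hs : b * 2 ^ m + 2 ^ m ≤ n := by
    have h1 : (b + 1) * 2 ^ m ≤ 2 ^ (N - m) * 2 ^ m := Nat.mul_le_mul_right _ hb
    rw [← pow_add, Nat.sub_add_cancel hm, add_mul, one_mul] at h1
    omega
  -- the rotated word `w'` satisfies `w' ∘ rotf = w`
  have h1 := ED_rotN_le (n := n) (s := b * 2 ^ m) (m := 2 ^ m) (by positivity) hs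
    (fun i => decide (i ∈ x.map (rot m b).toEmbedding))
  have h2 : fw n (fun i => (fun i => decide (i ∈ x.map (rot m b).toEmbedding))
      (rotN (b * 2 ^ m) (2 ^ m) i)) = wd n x := by
    rw [wd_eq_fw]
    unfold fw
    refine List.map_congr_left fun i _ => ?_
    rw [← rotf_eq_rotN]
    simp only [Finset.mem_map_equiv, rot_symm_apply, rotg_rotf]
  rw [h2, ← wd_eq_fw] at h1
  exact ED_le_of_al (ED_le_iff.1 h1).symm

end Vale.Agent.P238
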