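import Vale.Agent.P238.EditUp

/-!
# P238: swapping the two halves of a long block of a random word is expensive
-/

namespace Vale.Agent.P238

open Finset

theorem far {n N j b : ℕ} (hj : 6 ≤ j) (hjN : j + 1 ≤ N) (hn : 2 ^ N ≤ n)
    (hb : b < 2 ^ (N - j - 1)) :
    (2 ^ j : ℝ) / 128 ≤ Ex (1 / 2) (range (2 ^ N))
      (fun x => (ED (wd n x) (wd n (x.map (sw j b).toEmbedding)) : ℝ)) := by
  refine le_trans ?_ (far_h40 (by omega) hjN hn hb)
  have : (0 : ℝ) < 2 ^ j := by positivity
  linarith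

end Vale.Agent.P238
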