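import Vale.Agent.P238.Perm

/-!
# P238: Fourier coefficients and permutations of the coordinates
-/

namespace Vale.Agent.P238

open Finset

theorem map_symm_eq {A : Finset ℕ} {π : Equiv.Perm ℕ} (hπ : A.map π.toEmbedding = A) :
    A.map π.symm.toEmbedding = A := by
  ext i
  rw [Finset.mem_map_equiv, Equiv.symm_symm]
  constructor
  · intro h
    have h2 : π i ∈ A.map π.toEmbedding := by rwa [hπ]
    rw [Finset.mem_map_equiv, Equiv.symm_apply_apply] at h2
    exact h2
  · intro h
    rw [← hπ]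
    exact Finset.mem_map_of_mem _ h

theorem map_subset_of {A x : Finset ℕ} {π : Equiv.Perm ℕ} (hπ : A.map π.toEmbedding = A)
    (hx : x ⊆ A) : x.map π.toEmbedding ⊆ A := by
  rw [← hπ]
  exact Finset.map_subset_map.2 hx

theorem map_map_symm (x : Finset ℕ) (π : Equiv.Perm ℕ) :
    (x.map π.toEmbedding).map π.symm.toEmbedding = x := by
  ext i
  rw [Finset.mem_map_equiv, Equiv.symm_symm, Finset.mem_map_equiv, Equiv.symm_apply_apply]

theorem map_symm_map (x : Finset ℕ) (π : Equiv.Perm ℕ) :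
    (x.map π.symm.toEmbedding).map π.toEmbedding = x := by
  ext i
  rw [Finset.mem_map_equiv, Finset.mem_map_equiv, Equiv.symm_symm, Equiv.apply_symm_apply]

/-- reindexing a sum over the subsets of `A` -/
theorem sum_map {A : Finset ℕ} {π : Equiv.Perm ℕ} (hπ : A.map π.toEmbedding = A)
    {M : Type*} [AddCommMonoid M] (F : Finset ℕ → M) :
    ∑ x ∈ A.powerset, F (x.map π.toEmbedding) = ∑ x ∈ A.powerset, F x := by
  refine Finset.sum_nbij' (fun x => x.map π.toEmbedding) (fun x => x.map π.symm.toEmbedding)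
    ?_ ?_ ?_ ?_ ?_
  · intro x hx
    exact Finset.mem_powerset.2 (map_subset_of hπ (Finset.mem_powerset.1 hx))
  · intro x hx
    exact Finset.mem_powerset.2 (map_subset_of (map_symm_eq hπ) (Finset.mem_powerset.1 hx))
  · intro x _
    exact map_map_symm x π
  · intro x _
    exact map_symm_map x π
  · intro x _
    rfl

/-- the uniform measure is invariant -/
theorem Ex_map {A : Finset ℕ} {π : Equiv.Perm ℕ} (hπ : A.map π.toEmbedding = A)
    (g : Finset ℕ → ℝ) :
    Ex (1 / 2) A (fun x => g (x.map π.toEmbedding)) = Ex (1 / 2) A g := by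
  unfold Ex
  rw [← sum_map hπ (fun x => (1 / 2 : ℝ) ^ x.card * (1 - 1 / 2) ^ (A.card - x.card) * g x)]
  refine Finset.sum_congr rfl fun x _ => ?_
  rw [Finset.card_map]

theorem chi_map (S x : Finset ℕ) (π : Equiv.Perm ℕ) :
    chi (1 / 2) (S.map π.toEmbedding) (x.map π.toEmbedding) = chi (1 / 2) S x := by
  unfold chi
  rw [Finset.prod_map]
  refine Finset.prod_congr rfl fun i _ => ?_
  unfold xi
  simp only [Equiv.coe_toEmbedding, Finset.mem_map_equiv, Equiv.symm_apply_apply]

theorem co_map {A : Finset ℕ} {π : Equiv.Perm ℕ} (hπ : A.map π.toEmbedding = A)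
    (g : Finset ℕ → ℝ) (S : Finset ℕ) :
    co (1 / 2) A (fun x => g (x.map π.toEmbedding)) S = co (1 / 2) A g (S.map π.toEmbedding) := by
  unfold co
  rw [← Ex_map hπ (fun x => g x * chi (1 / 2) (S.map π.toEmbedding) x)]
  refine Ex_congr fun x _ => ?_
  rw [chi_map]

theorem D1_nonneg (A : Finset ℕ) (f : Finset ℕ → ℝ) (π : Equiv.Perm ℕ) : 0 ≤ D1 A f π :=
  Ex_nonneg (by norm_num) (by norm_num) fun _ _ => abs_nonneg _

theorem I1_nonneg (A : Finset ℕ) (f : Finset ℕ → ℝ) (i : ℕ) : 0 ≤ I1 A f i :=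
  Ex_nonneg (by norm_num) (by norm_num) fun _ _ => abs_nonneg _

theorem abs_eq_sq {u v : ℝ} (hu : u = 0 ∨ u = 1) (hv : v = 0 ∨ v = 1) : |u - v| = (u - v) ^ 2 := by
  rcases hu with h | h <;> rcases hv with h' | h' <;> rw [h, h'] <;> norm_num

/-- for functions with values in `{0, 1}` -/
theorem I1_eq_piv {A : Finset ℕ} {g : Finset ℕ → ℝ} (hg : ∀ x ⊆ A, g x = 0 ∨ g x = 1) {i : ℕ}
    (hi : i ∈ A) : I1 A g i = piv (1 / 2) A g i := by
  unfold I1 piv
  refine Ex_congr fun x hx => ?_
  have hx1 : x ⊆ A := hx.trans (Finset.erase_subset i A)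
  exact abs_eq_sq (hg _ (Finset.insert_subset hi hx1)) (hg _ hx1)

theorem D1_eq {A : Finset ℕ} {g : Finset ℕ → ℝ} (hg : ∀ x ⊆ A, g x = 0 ∨ g x = 1)
    {π : Equiv.Perm ℕ} (hπ : A.map π.toEmbedding = A) :
    D1 A g π = ∑ S ∈ A.powerset,
      (co (1 / 2) A g S - co (1 / 2) A g (S.map π.toEmbedding)) ^ 2 := by
  have h1 : D1 A g π = Ex (1 / 2) A (fun x => (g x - g (x.map π.toEmbedding)) ^ 2) := by
    unfold D1
    refine Ex_congr fun x hx => ?_
    exact abs_eq_sq (hg _ hx) (hg _ (map_subset_of hπ hx))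
  rw [h1, ← parseval (by norm_num) (by norm_num)]
  refine Finset.sum_congr rfl fun S _ => ?_
  rw [← co_map hπ]
  congr 1
  unfold co
  rw [← Ex_sub]
  refine Ex_congr fun x _ => ?_
  ring

theorem D1_pow {A : Finset ℕ} (f : Finset ℕ → ℝ) {π : Equiv.Perm ℕ}
    (hπ : A.map π.toEmbedding = A) (m : ℕ) : D1 A f (π ^ m) ≤ m * D1 A f π := by
  induction m with
  | zero =>
    simp only [pow_zero, Nat.cast_zero, zero_mul]
    unfold D1
    have h : ∀ x ⊆ A, |f x - f (x.map (1 : Equiv.Perm ℕ).toEmbedding)| = (fun _ => (0 : ℝ)) x := by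
      intro x _
      have h2 : x.map (1 : Equiv.Perm ℕ).toEmbedding = x := by
        ext i
        rw [Finset.mem_map_equiv]
        rfl
      rw [h2, sub_self, abs_zero]
    rw [Ex_congr h, Ex_const]
  | succ m ih =>
    have h1 : D1 A f (π ^ (m + 1)) ≤ D1 A f π + D1 A f (π ^ m) := by
      unfold D1
      rw [← Ex_map hπ (fun x => |f x - f (x.map (π ^ m).toEmbedding)|), ← Ex_add]
      refine Ex_mono (by norm_num) (by norm_num) fun x _ => ?_
      have h2 : x.map (π ^ (m + 1)).toEmbedding = (x.map π.toEmbedding).map (π ^ m).toEmbedding := by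
        ext i
        rw [Finset.mem_map_equiv, Finset.mem_map_equiv, Finset.mem_map_equiv, pow_succ]
        rfl
      rw [h2]
      exact abs_sub_le _ _ _
    push_cast
    linarith

end Vale.Agent.P238
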