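import Vale.Agent.P238.MainL1
import Vale.Agent.P238.Far

/-!
# P238: the inequality for a map with `‖F x - F y‖ ≤ α ED` and `ED ≤ β ‖F x - F y‖`
-/

namespace Vale.Agent.P238

open Finset

theorem D1v_le {n : ℕ} {A : Finset ℕ} {α : ℝ} (hα : 0 ≤ α) (F : Finset ℕ → Ell1)
    (h1 : ∀ x y, ‖F x - F y‖ ≤ α * ED (wd n x) (wd n y)) (π : Equiv.Perm ℕ)
    (h : ∀ x, ED (wd n x) (wd n (x.map π.toEmbedding)) ≤ 2) : D1v A F π ≤ α * 2 := by
  unfold D1v
  have : Ex (1 / 2) A (fun x => ‖F x - F (x.map π.toEmbedding)‖)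
      ≤ Ex (1 / 2) A (fun _ => α * 2) := by
    refine Ex_mono (by norm_num) (by norm_num) (fun x _ => ?_)
    refine (h1 _ _).trans (mul_le_mul_of_nonneg_left ?_ hα)
    exact_mod_cast h x
  rwa [Ex_const] at this

theorem I1v_le {n : ℕ} {A : Finset ℕ} {α : ℝ} (hα : 0 ≤ α) (F : Finset ℕ → Ell1)
    (h1 : ∀ x y, ‖F x - F y‖ ≤ α * ED (wd n x) (wd n y)) (i : ℕ) : I1v A F i ≤ α := by
  unfold I1v
  have : Ex (1 / 2) (A.erase i) (fun x => ‖F (insert i x) - F x‖)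
      ≤ Ex (1 / 2) (A.erase i) (fun _ => α) := by
    refine Ex_mono (by norm_num) (by norm_num) (fun x _ => ?_)
    refine (h1 _ _).trans ?_
    have h2 : (ED (wd n (insert i x)) (wd n x) : ℝ) ≤ 1 := by exact_mod_cast ED_flip n i x
    nlinarith
  rwa [Ex_const] at this

theorem key_ineq' {n N k κ : ℕ} (hn : 2 ^ N ≤ n) (hk : 1 ≤ k) (hκ : 1 ≤ κ)
    (ha : 48 * κ + k ≤ N) {α β : ℝ} (hα : 0 ≤ α) (hβ : 0 ≤ β) (F : Finset ℕ → Ell1)
    (h1 : ∀ x y, ‖F x - F y‖ ≤ α * ED (wd n x) (wd n y))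
    (h2 : ∀ x y, (ED (wd n x) (wd n y) : ℝ) ≤ β * ‖F x - F y‖) :
    ((Icc (48 * κ) (N - k)).card : ℝ) / 256 ≤
      (α * β) * (4 * (Icc (48 * κ) (N - k)).card / 2 ^ k + 5 * k / κ) := by
  have hmain := main_l1 hk hκ ha F
  set C := (Icc (48 * κ) (N - k)).card with hC
  have hp : (0 : ℝ) < 2 ^ N := by positivity
  -- lower bound of the left-hand side
  have hlow : (2 : ℝ) ^ N * (C / 256) ≤ β * ∑ j ∈ Icc (48 * κ) (N - k),
      ∑ b ∈ range (2 ^ (N - j - 1)), D1v (range (2 ^ N)) F (sw j b) := by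
    rw [Finset.mul_sum]
    have : (2 : ℝ) ^ N * (C / 256) = ∑ j ∈ Icc (48 * κ) (N - k), (2 : ℝ) ^ N / 256 := by
      rw [Finset.sum_const, nsmul_eq_mul]
      ring
    rw [this]
    refine Finset.sum_le_sum (fun j hj => ?_)
    rw [mem_Icc] at hj
    rw [Finset.mul_sum]
    have h3 : (2 : ℝ) ^ N / 256 = ∑ b ∈ range (2 ^ (N - j - 1)), (2 ^ j : ℝ) / 128 := by
      rw [Finset.sum_const, card_range, nsmul_eq_mul]
      push_cast
      have : (2 : ℝ) ^ N = 2 ^ (N - j - 1) * 2 ^ j * 2 := by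
        rw [← pow_add, ← pow_succ]
        congr 1
        omega
      rw [this]
      ring
    rw [h3]
    refine Finset.sum_le_sum (fun b hb => ?_)
    rw [mem_range] at hb
    refine (far (n := n) (by omega) (by omega) hn hb).trans ?_
    unfold D1v
    rw [← Ex_smul]
    exact Ex_mono (by norm_num) (by norm_num) (fun x _ => h2 _ _)
  -- upper bound of the right-hand side
  have hrot : ∀ m b, m ≤ N → b < 2 ^ (N - m) → D1v (range (2 ^ N)) F (rot m b) ≤ α * 2 :=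
    fun m b hm hb => D1v_le hα F h1 _ (fun x => ED_rot hn hm hb x)
  have hI : ∑ i ∈ range (2 ^ N), I1v (range (2 ^ N)) F i ≤ 2 ^ N * α := by
    refine (Finset.sum_le_sum (fun i _ => I1v_le hα F h1 i)).trans ?_
    rw [Finset.sum_const, card_range, nsmul_eq_mul]
    push_cast
    exact le_rfl
  have hR1 : ∑ j ∈ Icc (48 * κ) (N - k), 2 * 2 ^ j *
      ∑ w ∈ range (2 ^ (N - j - k)), D1v (range (2 ^ N)) F (rot (j + k) w)
      ≤ 2 ^ N * (α * (4 * C / 2 ^ k)) := by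
    have : (2 : ℝ) ^ N * (α * (4 * C / 2 ^ k))
        = ∑ j ∈ Icc (48 * κ) (N - k), (2 : ℝ) ^ N * (α * (4 / 2 ^ k)) := by
      rw [Finset.sum_const, nsmul_eq_mul]
      ring
    rw [this]
    refine Finset.sum_le_sum (fun j hj => ?_)
    rw [mem_Icc] at hj
    have h3 : ∑ w ∈ range (2 ^ (N - j - k)), D1v (range (2 ^ N)) F (rot (j + k) w)
        ≤ 2 ^ (N - j - k) * (α * 2) := by
      have h4 : ∑ w ∈ range (2 ^ (N - j - k)), D1v (range (2 ^ N)) F (rot (j + k) w)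
          ≤ ∑ w ∈ range (2 ^ (N - j - k)), (α * 2) := by
        refine Finset.sum_le_sum (fun w hw => ?_)
        rw [mem_range] at hw
        refine hrot _ _ (by omega) ?_
        rwa [← Nat.sub_sub]
      refine h4.trans ?_
      rw [Finset.sum_const, card_range, nsmul_eq_mul]
      push_cast
      exact le_rfl
    have h5 : (2 : ℝ) ^ N = 2 ^ (N - j - k) * 2 ^ j * 2 ^ k := by
      rw [← pow_add, ← pow_add]
      congr 1
      omega
    calc 2 * 2 ^ j * ∑ w ∈ range (2 ^ (N - j - k)), D1v (range (2 ^ N)) F (rot (j + k) w)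
        ≤ 2 * 2 ^ j * (2 ^ (N - j - k) * (α * 2)) :=
          mul_le_mul_of_nonneg_left h3 (by positivity)
      _ = (2 : ℝ) ^ N * (α * (4 / 2 ^ k)) := by
          rw [h5]
          field_simp
          ring
  have hR2 : (2 : ℝ) ^ (48 * κ) * ∑ q ∈ range (2 ^ (N - 48 * κ)),
      D1v (range (2 ^ N)) F (rot (48 * κ) q) ≤ 2 ^ N * (2 * α) := by
    have h4 : ∑ q ∈ range (2 ^ (N - 48 * κ)), D1v (range (2 ^ N)) F (rot (48 * κ) q)
        ≤ ∑ q ∈ range (2 ^ (N - 48 * κ)), (α * 2) := by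
      refine Finset.sum_le_sum (fun w hw => ?_)
      rw [mem_range] at hw
      exact hrot _ _ (by omega) hw
    rw [Finset.sum_const, card_range, nsmul_eq_mul] at h4
    push_cast at h4
    have h5 : (2 : ℝ) ^ N = 2 ^ (48 * κ) * 2 ^ (N - 48 * κ) := by
      rw [← pow_add]
      congr 1
      omega
    calc (2 : ℝ) ^ (48 * κ) * ∑ q ∈ range (2 ^ (N - 48 * κ)),
          D1v (range (2 ^ N)) F (rot (48 * κ) q)
        ≤ 2 ^ (48 * κ) * (2 ^ (N - 48 * κ) * (α * 2)) :=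
          mul_le_mul_of_nonneg_left h4 (by positivity)
      _ = 2 ^ N * (2 * α) := by rw [h5]; ring
  have hκpos : (0 : ℝ) < κ := by exact_mod_cast hκ
  have hkpos : (0 : ℝ) < k := by exact_mod_cast hk
  have h8 : (1 / 8 : ℝ) ^ κ ≤ 1 / (8 * κ) := by
    have h9 : (8 : ℝ) * κ ≤ 8 ^ κ := by
      have h10 : 1 + (κ : ℝ) * 7 ≤ (1 + 7) ^ κ := one_add_mul_le_pow (by norm_num) κ
      have h11 : (κ : ℝ) ≤ 2 ^ κ := by
        exact_mod_cast (Nat.lt_two_pow_self (n := κ)).le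
      have h12 : ∀ c : ℕ, 1 ≤ c → (8 : ℝ) * c ≤ 8 ^ c := by
        intro c hc
        induction c, hc using Nat.le_induction with
        | base => norm_num
        | succ c hc ih =>
          rw [pow_succ]
          have : (1 : ℝ) ≤ c := by exact_mod_cast hc
          push_cast
          linarith
      exact h12 κ hκ
    rw [one_div, inv_pow, ← one_div]
    exact one_div_le_one_div_of_le (by positivity) h9
  have hsum : 8 * (k : ℝ) * (1 / (4 * κ) * ∑ i ∈ range (2 ^ N), I1v (range (2 ^ N)) F i +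
        (1 / 8) ^ κ * (∑ i ∈ range (2 ^ N), I1v (range (2 ^ N)) F i +
          2 ^ (48 * κ) * ∑ q ∈ range (2 ^ (N - 48 * κ)),
            D1v (range (2 ^ N)) F (rot (48 * κ) q))) ≤ 2 ^ N * (α * (5 * k / κ)) := by
    have h9 : 1 / (4 * (κ : ℝ)) * ∑ i ∈ range (2 ^ N), I1v (range (2 ^ N)) F i
        ≤ 1 / (4 * κ) * (2 ^ N * α) := mul_le_mul_of_nonneg_left hI (by positivity)
    have h10 : (1 / 8 : ℝ) ^ κ * (∑ i ∈ range (2 ^ N), I1v (range (2 ^ N)) F i +
          2 ^ (48 * κ) * ∑ q ∈ range (2 ^ (N - 48 * κ)),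
            D1v (range (2 ^ N)) F (rot (48 * κ) q)) ≤ 1 / (8 * κ) * (2 ^ N * (3 * α)) := by
      have h11 : ∑ i ∈ range (2 ^ N), I1v (range (2 ^ N)) F i +
          2 ^ (48 * κ) * ∑ q ∈ range (2 ^ (N - 48 * κ)),
            D1v (range (2 ^ N)) F (rot (48 * κ) q) ≤ 2 ^ N * (3 * α) := by linarith
      calc (1 / 8 : ℝ) ^ κ * (∑ i ∈ range (2 ^ N), I1v (range (2 ^ N)) F i +
          2 ^ (48 * κ) * ∑ q ∈ range (2 ^ (N - 48 * κ)),
            D1v (range (2 ^ N)) F (rot (48 * κ) q))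
          ≤ (1 / 8 : ℝ) ^ κ * (2 ^ N * (3 * α)) :=
            mul_le_mul_of_nonneg_left h11 (by positivity)
        _ ≤ 1 / (8 * κ) * (2 ^ N * (3 * α)) :=
            mul_le_mul_of_nonneg_right h8 (by positivity)
    have h12 : 8 * (k : ℝ) * (1 / (4 * κ) * (2 ^ N * α) + 1 / (8 * κ) * (2 ^ N * (3 * α)))
        = 2 ^ N * (α * (5 * k / κ)) := by
      field_simp
      ring
    rw [← h12]
    exact mul_le_mul_of_nonneg_left (add_le_add h9 h10) (by positivity)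
  have hup : β * ∑ j ∈ Icc (48 * κ) (N - k),
      ∑ b ∈ range (2 ^ (N - j - 1)), D1v (range (2 ^ N)) F (sw j b)
      ≤ β * (2 ^ N * (α * (4 * C / 2 ^ k)) + 2 ^ N * (α * (5 * k / κ))) :=
    mul_le_mul_of_nonneg_left (hmain.trans (add_le_add hR1 hsum)) hβ
  have hfin := hlow.trans hup
  have : β * (2 ^ N * (α * (4 * C / 2 ^ k)) + 2 ^ N * (α * (5 * k / κ)))
      = (2 : ℝ) ^ N * ((α * β) * (4 * C / 2 ^ k + 5 * k / κ)) := by ring
  rw [this] at hfin
  exact le_of_mul_le_mul_left hfin hp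

end Vale.Agent.P238
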