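import Vale.Agent.P238.LightH40

/-!
# P238: the light part of the spectrum in a block of length `2^(48 κ)`
-/

namespace Vale.Agent.P238

open Finset

theorem rot_pow_apply {m q i : ℕ} (hi : i / 2 ^ m = q) (r : ℕ) :
    (rot m q ^ r) i = q * 2 ^ m + (i % 2 ^ m + r) % 2 ^ m := by
  have hp : 0 < 2 ^ m := by positivity
  induction r with
  | zero =>
    rw [pow_zero, add_zero, Nat.mod_mod, ← hi]
    exact (Nat.div_add_mod' i (2 ^ m)).symm
  | succ r ih =>
    rw [pow_succ', Equiv.Perm.mul_apply, ih]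
    obtain ⟨h1, h2⟩ := rot_aux (c := r) hi
    rw [rot_apply, rotf, if_pos h1, h2, Nat.mod_add_mod, add_assoc]

/-- inside one block -/
theorem light_block {m q κ : ℕ} (_hκ : 1 ≤ κ) (hm : m = 48 * κ) {Q : Finset ℕ}
    (hQ : ∀ i, i ∈ Q ↔ i / 2 ^ m = q) {h : Finset ℕ → ℝ}
    (hh : ∀ x ⊆ Q, h x = 0 ∨ h x = 1) :
    ∑ T ∈ Q.powerset.filter (fun T => 1 ≤ T.card ∧ T.card ≤ κ), co (1 / 2) Q h T ^ 2 ≤
      (1 / 8) ^ κ * (∑ i ∈ Q, I1 Q h i + 2 ^ m * D1 Q h (rot m q)) := by
  have hp : 0 < 2 ^ m := by positivity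
  have hcard : Q.card = 2 ^ m := by
    have e1 : Q = Finset.Ico (q * 2 ^ m) ((q + 1) * 2 ^ m) := by
      ext i
      rw [hQ, Finset.mem_Ico, Nat.div_eq_iff hp]
      constructor
      · rintro ⟨h1, h2⟩
        refine ⟨h1, ?_⟩
        rw [add_mul, one_mul]; omega
      · rintro ⟨h1, h2⟩
        refine ⟨h1, ?_⟩
        rw [add_mul, one_mul] at h2; omega
    rw [e1, Nat.card_Ico, add_mul, one_mul, Nat.add_sub_cancel_left]
  have hA : act (rot m q) Q = Q := by
    ext i
    rw [mem_act, hQ, hQ, rot_symm_apply]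
    have h1 : rot m q (rotg m q i) = i := rotf_rotg m q i
    have h2 := rot_div_self m q (rotg m q i)
    rw [h1] at h2
    rw [h2]
  have hinj : ∀ i ∈ Q, ∀ r < Q.card, ∀ s < Q.card,
      (rot m q ^ r) i = (rot m q ^ s) i → r = s := by
    intro i hi r hr s hs hrs
    rw [hQ] at hi
    rw [rot_pow_apply hi, rot_pow_apply hi] at hrs
    have h1 : (i % 2 ^ m + r) % 2 ^ m = (i % 2 ^ m + s) % 2 ^ m := Nat.add_left_cancel hrs
    have h2 : r % 2 ^ m = s % 2 ^ m := Nat.ModEq.add_left_cancel' _ h1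
    rw [hcard] at hr hs
    rwa [Nat.mod_eq_of_lt hr, Nat.mod_eq_of_lt hs] at h2
  have key := light_core hA hh κ (by rw [hcard, hm]) hinj
  have e1 : ∑ i ∈ Q, piv (1 / 2) Q h i = ∑ i ∈ Q, I1 Q h i :=
    Finset.sum_congr rfl fun i hi => (I1_eq_piv hh hi).symm
  have e2 : chg Q h (rot m q) = D1 Q h (rot m q) := by
    unfold chg D1
    refine Ex_congr fun x hx => ?_
    exact (abs_eq_sq (hh x hx) (hh _ (act_subset hA hx))).symm
  rw [e1, e2, hcard] at key
  push_cast at key
  exact key

/-- Fourier coefficients of a function on a disjoint union -/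
theorem co_union {α : Type*} [DecidableEq α] {p : ℝ} {A B : Finset α} (hd : Disjoint A B)
    (g : Finset α → ℝ) {T U : Finset α} (hT : T ⊆ A) (hU : U ⊆ B) :
    co p (A ∪ B) g (T ∪ U) = co p B (fun z => co p A (fun y => g (y ∪ z)) T) U := by
  unfold co
  rw [Ex_union p A B hd]
  refine Ex_congr fun z hz => ?_
  rw [mul_comm, ← Ex_smul]
  refine Ex_congr fun y hy => ?_
  have e1 : chi p (T ∪ U) (y ∪ z) = chi p T y * chi p U z := by
    unfold chi
    rw [Finset.prod_union (Finset.disjoint_of_subset_left hT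
      (Finset.disjoint_of_subset_right hU hd))]
    congr 1
    · refine Finset.prod_congr rfl fun i hi => ?_
      unfold xi
      have : i ∉ z := fun h => (Finset.disjoint_left.1 hd) (hT hi) (hz h)
      simp only [Finset.mem_union, this, or_false]
    · refine Finset.prod_congr rfl fun i hi => ?_
      unfold xi
      have : i ∉ y := fun h => (Finset.disjoint_left.1 hd) (hy h) (hU hi)
      simp only [Finset.mem_union, this, false_or]
  rw [e1]
  ring

/-- sums over the subsets of a disjoint union -/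
theorem sum_powerset_union {α : Type*} [DecidableEq α] {A B : Finset α} (hd : Disjoint A B)
    (F : Finset α → ℝ) :
    ∑ S ∈ (A ∪ B).powerset, F S = ∑ T ∈ A.powerset, ∑ U ∈ B.powerset, F (T ∪ U) := by
  rw [← Finset.sum_product']
  symm
  refine Finset.sum_bij' (fun x _ => x.1 ∪ x.2) (fun S _ => (S ∩ A, S ∩ B)) ?_ ?_ ?_ ?_ ?_
  · rintro ⟨T, U⟩ h
    rw [Finset.mem_product, Finset.mem_powerset, Finset.mem_powerset] at h
    exact Finset.mem_powerset.2 (Finset.union_subset_union h.1 h.2)
  · intro S _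
    rw [Finset.mem_product, Finset.mem_powerset, Finset.mem_powerset]
    exact ⟨Finset.inter_subset_right, Finset.inter_subset_right⟩
  · rintro ⟨T, U⟩ h
    rw [Finset.mem_product, Finset.mem_powerset, Finset.mem_powerset] at h
    obtain ⟨h1, h2⟩ := h
    have d1 : Disjoint U A := (Finset.disjoint_of_subset_right h2 hd).symm
    have d2 : Disjoint T B := Finset.disjoint_of_subset_left h1 hd
    simp only [Prod.mk.injEq]
    rw [Finset.union_inter_distrib_right, Finset.union_inter_distrib_right,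
      Finset.disjoint_iff_inter_eq_empty.1 d1, Finset.disjoint_iff_inter_eq_empty.1 d2,
      Finset.inter_eq_left.2 h1, Finset.inter_eq_left.2 h2, Finset.union_empty,
      Finset.empty_union]
    exact ⟨rfl, rfl⟩
  · intro S hS
    rw [Finset.mem_powerset] at hS
    simp only
    rw [← Finset.inter_union_distrib_left, Finset.inter_eq_left.2 hS]
  · rintro ⟨T, U⟩ _
    rfl

theorem light {N κ q : ℕ} (hκ : 1 ≤ κ) (haN : 48 * κ ≤ N) (hq : q < 2 ^ (N - 48 * κ))
    {g : Finset ℕ → ℝ} (hg : ∀ x ⊆ range (2 ^ N), g x = 0 ∨ g x = 1) :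
    ∑ S ∈ (range (2 ^ N)).powerset.filter
        (fun S => 1 ≤ (part (48 * κ) q S).card ∧ (part (48 * κ) q S).card ≤ κ),
        co (1 / 2) (range (2 ^ N)) g S ^ 2 ≤
      (1 / 8) ^ κ * (∑ i ∈ part (48 * κ) q (range (2 ^ N)), I1 (range (2 ^ N)) g i +
        2 ^ (48 * κ) * D1 (range (2 ^ N)) g (rot (48 * κ) q)) := by
  set m := 48 * κ with hm
  have hp : 0 < 2 ^ m := by positivity
  set A := range (2 ^ N) with hAdef
  set Q := part m q A with hQdef
  set R := A \ Q with hRdef
  have hQA : Q ⊆ A := Finset.filter_subset _ _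
  have hd : Disjoint Q R := Finset.disjoint_sdiff
  have hU : Q ∪ R = A := Finset.union_sdiff_of_subset hQA
  have hQ : ∀ i, i ∈ Q ↔ i / 2 ^ m = q := by
    intro i
    rw [hQdef, part, Finset.mem_filter]
    constructor
    · exact fun h => h.2
    · intro h
      refine ⟨?_, h⟩
      rw [hAdef, Finset.mem_range]
      have h1 : i < (q + 1) * 2 ^ m := by
        rw [← h]; rw [mul_comm]; exact Nat.lt_mul_div_succ i hp
      have h2 : (q + 1) * 2 ^ m ≤ 2 ^ (N - m) * 2 ^ m := Nat.mul_le_mul_right _ hq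
      rw [← pow_add, Nat.sub_add_cancel haN] at h2
      omega
  have hpart : ∀ T ⊆ Q, ∀ U ⊆ R, part m q (T ∪ U) = T := by
    intro T hT U hU'
    ext i
    rw [part, Finset.mem_filter, Finset.mem_union]
    constructor
    · rintro ⟨h1 | h1, h2⟩
      · exact h1
      · exact absurd ((hQ i).2 h2) (Finset.mem_sdiff.1 (hU' h1)).2
    · intro h
      exact ⟨Or.inl h, (hQ i).1 (hT h)⟩
  -- conditional functions are Boolean
  have hgz : ∀ z ⊆ R, ∀ y ⊆ Q, g (y ∪ z) = 0 ∨ g (y ∪ z) = 1 := by
    intro z hz y hy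
    apply hg
    rw [← hU]
    exact Finset.union_subset_union hy hz
  -- the left side
  have hL : ∑ S ∈ A.powerset.filter
        (fun S => 1 ≤ (part m q S).card ∧ (part m q S).card ≤ κ), co (1 / 2) A g S ^ 2 =
      Ex (1 / 2) R (fun z => ∑ T ∈ Q.powerset.filter (fun T => 1 ≤ T.card ∧ T.card ≤ κ),
        co (1 / 2) Q (fun y => g (y ∪ z)) T ^ 2) := by
    rw [Finset.sum_filter, ← hU, sum_powerset_union hd, Ex_sum, Finset.sum_filter]
    refine Finset.sum_congr rfl fun T hT => ?_
    rw [Finset.mem_powerset] at hT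
    have e1 : ∀ U ∈ R.powerset,
        (if 1 ≤ (part m q (T ∪ U)).card ∧ (part m q (T ∪ U)).card ≤ κ then
          co (1 / 2) (Q ∪ R) g (T ∪ U) ^ 2 else 0) =
        if 1 ≤ T.card ∧ T.card ≤ κ then
          co (1 / 2) R (fun z => co (1 / 2) Q (fun y => g (y ∪ z)) T) U ^ 2 else 0 := by
      intro U hU'
      rw [Finset.mem_powerset] at hU'
      rw [hpart T hT U hU', co_union hd g hT hU']
    rw [Finset.sum_congr rfl e1]
    split_ifs with hc
    · rw [parseval (by norm_num) (by norm_num)]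
    · exact Finset.sum_const_zero
  rw [hL]
  -- block bound
  have hB : Ex (1 / 2) R (fun z => ∑ T ∈ Q.powerset.filter (fun T => 1 ≤ T.card ∧ T.card ≤ κ),
        co (1 / 2) Q (fun y => g (y ∪ z)) T ^ 2) ≤
      Ex (1 / 2) R (fun z => (1 / 8) ^ κ * (∑ i ∈ Q, I1 Q (fun y => g (y ∪ z)) i +
        2 ^ m * D1 Q (fun y => g (y ∪ z)) (rot m q))) :=
    Ex_mono (by norm_num) (by norm_num) fun z hz => light_block hκ hm hQ (hgz z hz)
  refine hB.trans (le_of_eq ?_)
  rw [Ex_smul, Ex_add, Ex_sum, Ex_smul]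
  congr 2
  · -- influences
    refine Finset.sum_congr rfl fun i hi => ?_
    unfold I1
    have e1 : A.erase i = Q.erase i ∪ R := by
      rw [← hU, Finset.erase_union_distrib]
      congr 1
      exact Finset.erase_eq_of_notMem fun h => (Finset.mem_sdiff.1 h).2 hi
    rw [e1, Ex_union _ _ _ (Finset.disjoint_of_subset_left (Finset.erase_subset i Q) hd)]
    refine Ex_congr fun z _ => Ex_congr fun y _ => ?_
    simp only [Finset.insert_union]
  · congr 1
    unfold D1
    rw [← hU, Ex_union _ _ _ hd]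
    refine Ex_congr fun z hz => Ex_congr fun y _ => ?_
    have e2 : (y ∪ z).map (rot m q).toEmbedding = y.map (rot m q).toEmbedding ∪ z := by
      rw [Finset.map_union]
      congr 1
      ext i
      rw [Finset.mem_map_equiv, rot_symm_apply]
      have h3 : ∀ i, i ∈ R → i / 2 ^ m ≠ q := fun i hi h =>
        (Finset.mem_sdiff.1 hi).2 ((hQ i).2 h)
      constructor
      · intro h
        have h4 := h3 _ (hz h)
        have h1 : rot m q (rotg m q i) = i := rotf_rotg m q i
        rw [rot_of_ne h4] at h1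
        rwa [← h1]
      · intro h
        have h4 := h3 _ (hz h)
        have h5 : rotg m q i = i := by
          unfold rotg
          rw [if_neg h4]
        rwa [h5]
    rw [e2]

end Vale.Agent.P238
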