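import Vale.Agent.P238.Fourier
import Vale.Agent.P238.CountDef

/-! Relabelling by permutations, and the low-degree weight of an almost rotation-invariant
Boolean function. -/

namespace Vale.Agent.P238

open Finset

set_option linter.unusedSectionVars false

variable {α : Type*} [DecidableEq α]

/-- relabelling a set by a permutation -/
def act (σ : Equiv.Perm α) (x : Finset α) : Finset α := x.map σ.toEmbedding

lemma mem_act {σ : Equiv.Perm α} {x : Finset α} {i : α} : i ∈ act σ x ↔ σ.symm i ∈ x := by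
  unfold act
  rw [Finset.mem_map_equiv]

lemma apply_mem_act {σ : Equiv.Perm α} {x : Finset α} {i : α} : σ i ∈ act σ x ↔ i ∈ x := by
  rw [mem_act, Equiv.symm_apply_apply]

lemma card_act (σ : Equiv.Perm α) (x : Finset α) : (act σ x).card = x.card := by
  unfold act
  rw [Finset.card_map]

lemma act_symm_act (σ : Equiv.Perm α) (x : Finset α) : act σ.symm (act σ x) = x := by
  ext i
  rw [mem_act, mem_act, Equiv.symm_symm, Equiv.symm_apply_apply]

lemma act_act_symm (σ : Equiv.Perm α) (x : Finset α) : act σ (act σ.symm x) = x := by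
  ext i
  rw [mem_act, mem_act, Equiv.symm_symm, Equiv.apply_symm_apply]

lemma act_mono {σ : Equiv.Perm α} {x y : Finset α} (h : x ⊆ y) : act σ x ⊆ act σ y := by
  intro i hi
  rw [mem_act] at hi ⊢
  exact h hi

lemma act_symm_of_act {σ : Equiv.Perm α} {A : Finset α} (hA : act σ A = A) :
    act σ.symm A = A := by
  conv_lhs => rw [← hA]
  exact act_symm_act σ A

lemma act_subset {σ : Equiv.Perm α} {A x : Finset α} (hA : act σ A = A) (hx : x ⊆ A) :
    act σ x ⊆ A := by
  conv_rhs => rw [← hA]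
  exact act_mono hx

lemma act_insert (σ : Equiv.Perm α) (i : α) (x : Finset α) :
    act σ (insert i x) = insert (σ i) (act σ x) := by
  ext j
  rw [mem_act, Finset.mem_insert, Finset.mem_insert, mem_act, Equiv.symm_apply_eq]

lemma act_erase (σ : Equiv.Perm α) (i : α) (x : Finset α) :
    act σ (x.erase i) = (act σ x).erase (σ i) := by
  ext j
  rw [mem_act, Finset.mem_erase, Finset.mem_erase, mem_act]
  rw [Ne, Ne, Equiv.symm_apply_eq]

lemma sum_act {σ : Equiv.Perm α} {A : Finset α} (hA : act σ A = A) (F : Finset α → ℝ) :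
    ∑ x ∈ A.powerset, F (act σ x) = ∑ x ∈ A.powerset, F x := by
  refine Finset.sum_bij' (fun x _ => act σ x) (fun x _ => act σ.symm x) ?_ ?_ ?_ ?_ ?_
  · intro x hx
    exact Finset.mem_powerset.2 (act_subset hA (Finset.mem_powerset.1 hx))
  · intro x hx
    exact Finset.mem_powerset.2 (act_subset (act_symm_of_act hA) (Finset.mem_powerset.1 hx))
  · intro x _; exact act_symm_act σ x
  · intro x _; exact act_act_symm σ x
  · intro x _; rfl

lemma Ex_act {p : ℝ} {σ : Equiv.Perm α} {A : Finset α} (hA : act σ A = A) (g : Finset α → ℝ) :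
    Ex p A (fun x => g (act σ x)) = Ex p A g := by
  unfold Ex
  rw [← sum_act hA (fun x => p ^ x.card * (1 - p) ^ (A.card - x.card) * g x)]
  refine Finset.sum_congr rfl fun x _ => ?_
  rw [card_act]

lemma chi_act (p : ℝ) (σ : Equiv.Perm α) (S x : Finset α) :
    chi p (act σ S) (act σ x) = chi p S x := by
  unfold chi
  rw [act, Finset.prod_map]
  refine Finset.prod_congr rfl fun i _ => ?_
  unfold xi
  simp only [Equiv.coe_toEmbedding, apply_mem_act]

lemma co_act {p : ℝ} {σ : Equiv.Perm α} {A : Finset α} (hA : act σ A = A) (g : Finset α → ℝ)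
    (S : Finset α) : co p A (fun x => g (act σ x)) S = co p A g (act σ S) := by
  unfold co
  rw [← Ex_act hA (fun x => g x * chi p (act σ S) x)]
  refine Ex_congr fun x _ => ?_
  rw [chi_act]

/-- probability that `g` changes under the relabelling `σ` (for Boolean `g`) -/
noncomputable def chg (A : Finset α) (g : Finset α → ℝ) (σ : Equiv.Perm α) : ℝ :=
  Ex (1 / 2) A (fun x => (g x - g (act σ x)) ^ 2)

lemma half_pos' : (0 : ℝ) < 1 / 2 := by norm_num
lemma half_lt' : (1 / 2 : ℝ) < 1 := by norm_num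

lemma chg_nonneg (A : Finset α) (g : Finset α → ℝ) (σ : Equiv.Perm α) : 0 ≤ chg A g σ :=
  Ex_nonneg half_pos'.le half_lt'.le fun _ _ => sq_nonneg _

lemma chg_eq {σ : Equiv.Perm α} {A : Finset α} (hA : act σ A = A) (g : Finset α → ℝ) :
    chg A g σ = ∑ S ∈ A.powerset, (co (1 / 2) A g S - co (1 / 2) A g (act σ S)) ^ 2 := by
  unfold chg
  rw [← parseval half_pos' half_lt' A]
  refine Finset.sum_congr rfl fun S _ => ?_
  congr 1
  rw [← co_act hA]
  unfold co
  rw [← Ex_sub]
  refine Ex_congr fun x _ => ?_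
  ring

lemma bool_tri {a b c : ℝ} (ha : a = 0 ∨ a = 1) (hb : b = 0 ∨ b = 1) (hc : c = 0 ∨ c = 1) :
    (a - c) ^ 2 ≤ (a - b) ^ 2 + (b - c) ^ 2 := by
  rcases ha with rfl | rfl <;> rcases hb with rfl | rfl <;> rcases hc with rfl | rfl <;> norm_num

lemma act_pow {σ : Equiv.Perm α} (m : ℕ) (x : Finset α) :
    act (σ ^ (m + 1)) x = act (σ ^ m) (act σ x) := by
  ext i
  rw [mem_act, mem_act, mem_act, ← Equiv.Perm.inv_def, ← Equiv.Perm.inv_def,
    ← Equiv.Perm.inv_def, ← Equiv.Perm.mul_apply, ← mul_inv_rev, pow_succ]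

lemma act_one (x : Finset α) : act (1 : Equiv.Perm α) x = x := by
  ext i
  rw [mem_act]
  rfl

lemma act_pow_self {σ : Equiv.Perm α} {A : Finset α} (hA : act σ A = A) (m : ℕ) :
    act (σ ^ m) A = A := by
  induction m with
  | zero => rw [pow_zero, act_one]
  | succ m ih => rw [act_pow, hA, ih]

lemma chg_pow_le {σ : Equiv.Perm α} {A : Finset α} (hA : act σ A = A) {g : Finset α → ℝ}
    (hg : ∀ x ⊆ A, g x = 0 ∨ g x = 1) (m : ℕ) : chg A g (σ ^ m) ≤ m * chg A g σ := by
  induction m with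
  | zero =>
    unfold chg
    simp only [pow_zero, act_one, sub_self, ne_eq, OfNat.ofNat_ne_zero, not_false_eq_true,
      zero_pow, Nat.cast_zero, zero_mul]
    rw [Ex_const]
  | succ m ih =>
    have h1 : chg A g (σ ^ (m + 1)) ≤ chg A g σ + chg A g (σ ^ m) := by
      unfold chg
      rw [← Ex_act hA (fun x => (g x - g (act (σ ^ m) x)) ^ 2), ← Ex_add]
      refine Ex_mono half_pos'.le half_lt'.le fun x hx => ?_
      rw [act_pow]
      exact bool_tri (hg x hx) (hg _ (act_subset hA hx))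
        (hg _ (act_subset (act_pow_self hA m) (act_subset hA hx)))
    push_cast
    linarith

lemma Ex_insert_erase {A : Finset α} {i : α} (hi : i ∈ A) (F : Finset α → ℝ) :
    Ex (1 / 2) A (fun x => F (insert i x)) + Ex (1 / 2) A (fun x => F (x.erase i)) =
      2 * Ex (1 / 2) A F := by
  have hA : insert i (A.erase i) = A := Finset.insert_erase hi
  have hn : i ∉ A.erase i := Finset.notMem_erase i A
  rw [← hA, Ex_insert _ hn, Ex_insert _ hn, Ex_insert _ hn]
  have e1 : Ex (1 / 2) (A.erase i) (fun x => F (insert i (insert i x))) =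
      Ex (1 / 2) (A.erase i) (fun x => F (insert i x)) :=
    Ex_congr fun x _ => by rw [Finset.insert_idem]
  have e2 : Ex (1 / 2) (A.erase i) (fun x => F (x.erase i)) = Ex (1 / 2) (A.erase i) F :=
    Ex_congr fun x hx => by rw [Finset.erase_eq_of_notMem fun h => hn (hx h)]
  have e3 : Ex (1 / 2) (A.erase i) (fun x => F ((insert i x).erase i)) =
      Ex (1 / 2) (A.erase i) F :=
    Ex_congr fun x hx => by rw [Finset.erase_insert fun h => hn (hx h)]
  rw [e1, e2, e3]
  ring

lemma piv_eq {A : Finset α} {i : α} (hi : i ∈ A) (g : Finset α → ℝ) :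
    piv (1 / 2) A g i = Ex (1 / 2) A (fun x => (g (insert i x) - g (x.erase i)) ^ 2) := by
  have hA : insert i (A.erase i) = A := Finset.insert_erase hi
  have hn : i ∉ A.erase i := Finset.notMem_erase i A
  conv_rhs => rw [← hA]
  rw [Ex_insert _ hn]
  unfold piv
  have e1 : Ex (1 / 2) (A.erase i) (fun x => (g (insert i x) - g (x.erase i)) ^ 2) =
      Ex (1 / 2) (A.erase i) (fun x => (g (insert i x) - g x) ^ 2) :=
    Ex_congr fun x hx => by rw [Finset.erase_eq_of_notMem fun h => hn (hx h)]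
  have e2 : Ex (1 / 2) (A.erase i)
      (fun x => (g (insert i (insert i x)) - g ((insert i x).erase i)) ^ 2) =
      Ex (1 / 2) (A.erase i) (fun x => (g (insert i x) - g x) ^ 2) :=
    Ex_congr fun x hx => by rw [Finset.insert_idem, Finset.erase_insert fun h => hn (hx h)]
  rw [e1, e2]
  ring

lemma piv_lipschitz {σ : Equiv.Perm α} {A : Finset α} (hA : act σ A = A) {g : Finset α → ℝ}
    (hg : ∀ x ⊆ A, g x = 0 ∨ g x = 1) {i : α} (hi : i ∈ A) :
    piv (1 / 2) A g i ≤ piv (1 / 2) A g (σ i) + 2 * chg A g σ := by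
  have hsi : σ i ∈ A := by
    rw [← hA]; exact apply_mem_act.2 hi
  rw [piv_eq hi, piv_eq hsi]
  rw [← Ex_act hA (fun x => (g (insert (σ i) x) - g (x.erase (σ i))) ^ 2)]
  unfold chg
  rw [← Ex_insert_erase hi, ← Ex_add, ← Ex_add]
  refine Ex_mono half_pos'.le half_lt'.le fun x hx => ?_
  rw [← act_insert, ← act_erase]
  have h1 : insert i x ⊆ A := Finset.insert_subset hi hx
  have h2 : x.erase i ⊆ A := (Finset.erase_subset i x).trans hx
  have h3 := bool_tri (hg _ h1) (hg _ (act_subset hA h1)) (hg _ h2)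
  have h4 := bool_tri (hg _ (act_subset hA h1)) (hg _ (act_subset hA h2)) (hg _ h2)
  have h5 : (g (act σ (x.erase i)) - g (x.erase i)) ^ 2 =
      (g (x.erase i) - g (act σ (x.erase i))) ^ 2 := by ring
  linarith

lemma piv_pow {σ : Equiv.Perm α} {A : Finset α} (hA : act σ A = A) {g : Finset α → ℝ}
    (hg : ∀ x ⊆ A, g x = 0 ∨ g x = 1) {i : α} (hi : i ∈ A) (r : ℕ) :
    (σ ^ r) i ∈ A ∧ piv (1 / 2) A g i - 2 * r * chg A g σ ≤ piv (1 / 2) A g ((σ ^ r) i) := by
  induction r with
  | zero => simpa using hi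
  | succ r ih =>
    obtain ⟨h1, h2⟩ := ih
    have e1 : (σ ^ (r + 1)) i = σ ((σ ^ r) i) := by
      rw [pow_succ', Equiv.Perm.mul_apply]
    have h3 : σ ((σ ^ r) i) ∈ A := by
      have h4 : σ ((σ ^ r) i) ∈ act σ A := apply_mem_act.2 h1
      rwa [hA] at h4
    have h4 := piv_lipschitz hA hg h1
    rw [e1]
    refine ⟨h3, ?_⟩
    have h5 : ((r + 1 : ℕ) : ℝ) = (r : ℝ) + 1 := by push_cast; ring
    rw [h5]
    nlinarith

lemma sg_half : sg (1 / 2) = 1 / 2 := by
  unfold sg
  rw [show (1 / 2 : ℝ) * (1 - 1 / 2) = (1 / 2) ^ 2 by norm_num]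
  exact Real.sqrt_sq (by norm_num)

lemma sum_co_sq_le_one {A : Finset α} {g : Finset α → ℝ} (hg : ∀ x ⊆ A, g x = 0 ∨ g x = 1) :
    ∑ S ∈ A.powerset, co (1 / 2) A g S ^ 2 ≤ 1 := by
  rw [parseval half_pos' half_lt']
  calc Ex (1 / 2) A (fun x => g x ^ 2) ≤ Ex (1 / 2) A (fun _ => 1) := by
        refine Ex_mono half_pos'.le half_lt'.le fun x hx => ?_
        rcases hg x hx with h | h <;> rw [h] <;> norm_num
    _ = 1 := Ex_const _ _ _

/-- the sum of influences along an orbit -/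
lemma orbit_sum {σ : Equiv.Perm α} {A : Finset α} (hA : act σ A = A) {g : Finset α → ℝ}
    (hg : ∀ x ⊆ A, g x = 0 ∨ g x = 1) {i : α} (hi : i ∈ A) (M : ℕ)
    (hinj : ∀ r < M, ∀ s < M, (σ ^ r) i = (σ ^ s) i → r = s) :
    M * piv (1 / 2) A g i ≤ ∑ j ∈ A, piv (1 / 2) A g j + (M : ℝ) ^ 2 * chg A g σ := by
  have h1 : ∑ r ∈ Finset.range M, piv (1 / 2) A g ((σ ^ r) i) ≤ ∑ j ∈ A, piv (1 / 2) A g j := by
    have e1 : ∑ r ∈ Finset.range M, piv (1 / 2) A g ((σ ^ r) i) =
        ∑ j ∈ (Finset.range M).image (fun r => (σ ^ r) i), piv (1 / 2) A g j := by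
      rw [Finset.sum_image]
      intro r hr s hs h
      exact hinj r (Finset.mem_range.1 hr) s (Finset.mem_range.1 hs) h
    rw [e1]
    refine Finset.sum_le_sum_of_subset_of_nonneg ?_ fun j _ _ =>
      piv_nonneg half_pos'.le half_lt'.le A g j
    intro j hj
    obtain ⟨r, _, rfl⟩ := Finset.mem_image.1 hj
    exact (piv_pow hA hg hi r).1
  have h2 : ∑ r ∈ Finset.range M, (piv (1 / 2) A g i - 2 * r * chg A g σ) ≤
      ∑ r ∈ Finset.range M, piv (1 / 2) A g ((σ ^ r) i) :=
    Finset.sum_le_sum fun r _ => (piv_pow hA hg hi r).2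
  have h3 : ∀ M : ℕ, ∑ r ∈ Finset.range M, (piv (1 / 2) A g i - 2 * r * chg A g σ) =
      M * piv (1 / 2) A g i - M * (M - 1) * chg A g σ := by
    intro M
    induction M with
    | zero => simp
    | succ M ih =>
      rw [Finset.sum_range_succ, ih]
      push_cast
      ring
  rw [h3] at h2
  have h4 := chg_nonneg A g σ
  have h5 : (M : ℝ) * (M - 1) * chg A g σ ≤ (M : ℝ) ^ 2 * chg A g σ := by
    refine mul_le_mul_of_nonneg_right ?_ h4
    have : (0 : ℝ) ≤ M := Nat.cast_nonneg M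
    nlinarith
  linarith

/-- the low-degree Fourier weight of a Boolean function on a block of length `2 ^ (48 κ)` is
exponentially small (in `κ`) compared to the total influence plus the rotation change -/
theorem light_core {σ : Equiv.Perm α} {A : Finset α} (hA : act σ A = A) {g : Finset α → ℝ}
    (hg : ∀ x ⊆ A, g x = 0 ∨ g x = 1) (κ : ℕ) (hcard : A.card = 2 ^ (48 * κ))
    (hinj : ∀ i ∈ A, ∀ r < A.card, ∀ s < A.card, (σ ^ r) i = (σ ^ s) i → r = s) :
    ∑ S ∈ A.powerset.filter (fun S => 1 ≤ S.card ∧ S.card ≤ κ), co (1 / 2) A g S ^ 2 ≤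
      (1 / 8) ^ κ * (∑ i ∈ A, piv (1 / 2) A g i + (A.card : ℝ) * chg A g σ) := by
  have hc := chg_nonneg A g σ
  by_cases hcase : ∀ i ∈ A, piv (1 / 2) A g i ≤ (1 / 4096) ^ κ
  · have h1 := level half_pos' half_lt' A κ g hg
    rw [sg_half] at h1
    refine h1.trans ?_
    have h2 : ∀ i ∈ A, (1 / 2 : ℝ) ^ 2 * ((4 / (1 / 2)) ^ κ *
        (piv (1 / 2) A g i * Real.sqrt (piv (1 / 2) A g i))) ≤
        (1 / 8) ^ κ * piv (1 / 2) A g i := by
      intro i hi
      have h3 := piv_nonneg half_pos'.le half_lt'.le A g i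
      have h4 : Real.sqrt (piv (1 / 2) A g i) ≤ (1 / 64) ^ κ := by
        rw [show ((1 / 64 : ℝ)) ^ κ = Real.sqrt (((1 / 64) ^ κ) ^ 2) from
          (Real.sqrt_sq (by positivity)).symm]
        apply Real.sqrt_le_sqrt
        rw [← pow_mul, mul_comm κ 2, pow_mul]
        refine (hcase i hi).trans (le_of_eq ?_)
        norm_num
      have h5 : (8 : ℝ) ^ κ * (1 / 64) ^ κ = (1 / 8) ^ κ := by
        rw [← mul_pow]; norm_num
      have h6 : piv (1 / 2) A g i * Real.sqrt (piv (1 / 2) A g i) ≤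
          piv (1 / 2) A g i * (1 / 64) ^ κ := mul_le_mul_of_nonneg_left h4 h3
      have h7 : (4 / (1 / 2) : ℝ) = 8 := by norm_num
      rw [h7]
      have h8 : (8 : ℝ) ^ κ * (piv (1 / 2) A g i * Real.sqrt (piv (1 / 2) A g i)) ≤
          (8 : ℝ) ^ κ * (piv (1 / 2) A g i * (1 / 64) ^ κ) :=
        mul_le_mul_of_nonneg_left h6 (by positivity)
      have h9 : (8 : ℝ) ^ κ * (piv (1 / 2) A g i * (1 / 64) ^ κ) =
          (1 / 8) ^ κ * piv (1 / 2) A g i := by rw [← h5]; ring
      have h10 : 0 ≤ (1 / 8 : ℝ) ^ κ * piv (1 / 2) A g i := by positivity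
      linarith
    refine (Finset.sum_le_sum h2).trans ?_
    rw [← Finset.mul_sum]
    refine mul_le_mul_of_nonneg_left ?_ (by positivity)
    have : 0 ≤ (A.card : ℝ) * chg A g σ := by positivity
    linarith
  · push Not at hcase
    obtain ⟨i, hi, hpi⟩ := hcase
    have hM : 2 ^ (24 * κ) ≤ A.card := by
      rw [hcard]; exact Nat.pow_le_pow_right (by norm_num) (by omega)
    have h1 := orbit_sum hA hg hi (2 ^ (24 * κ)) fun r hr s hs =>
      hinj i hi r (hr.trans_le hM) s (hs.trans_le hM)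
    have h2 : (((2 ^ (24 * κ) : ℕ) : ℝ)) ^ 2 = (A.card : ℝ) := by
      rw [hcard]; push_cast; rw [← pow_mul]; congr 1; ring
    rw [h2] at h1
    have h3 : (4096 : ℝ) ^ κ ≤ ((2 ^ (24 * κ) : ℕ) : ℝ) * piv (1 / 2) A g i := by
      have e1 : ((2 ^ (24 * κ) : ℕ) : ℝ) = 4096 ^ κ * 4096 ^ κ := by
        push_cast
        rw [pow_mul, ← mul_pow]; norm_num
      rw [e1]
      have e2 : (4096 : ℝ) ^ κ * (1 / 4096) ^ κ = 1 := by
        rw [← mul_pow]; norm_num
      have e3 : (0 : ℝ) < 4096 ^ κ := by positivity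
      calc (4096 : ℝ) ^ κ = 4096 ^ κ * (4096 ^ κ * (1 / 4096) ^ κ) := by rw [e2, mul_one]
        _ ≤ 4096 ^ κ * (4096 ^ κ * piv (1 / 2) A g i) :=
          mul_le_mul_of_nonneg_left (mul_le_mul_of_nonneg_left hpi.le e3.le) e3.le
        _ = _ := by ring
    have h4 : (1 : ℝ) ≤ (1 / 8) ^ κ * 4096 ^ κ := by
      rw [← mul_pow]
      exact one_le_pow₀ (by norm_num)
    have h5 : ∑ S ∈ A.powerset.filter (fun S => 1 ≤ S.card ∧ S.card ≤ κ),
        co (1 / 2) A g S ^ 2 ≤ 1 :=
      (Finset.sum_le_sum_of_subset_of_nonneg (Finset.filter_subset _ _)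
        fun _ _ _ => sq_nonneg _).trans (sum_co_sq_le_one hg)
    refine h5.trans (h4.trans ?_)
    refine mul_le_mul_of_nonneg_left ?_ (by positivity)
    linarith

end Vale.Agent.P238
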