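import Vale.Agent.P238.StepB
import Vale.Agent.P238.Light
import Vale.Agent.P238.Count

/-!
# P238: the main inequality for functions with values in `{0, 1}`
-/

namespace Vale.Agent.P238

open Finset

theorem div_mem {N j k b : ℕ} (hk : 1 ≤ k) (hjk : j + k ≤ N) (hb : b ∈ range (2 ^ (N - j - 1))) :
    b / 2 ^ (k - 1) ∈ range (2 ^ (N - j - k)) := by
  rw [Finset.mem_range] at hb ⊢
  rw [Nat.div_lt_iff_lt_mul (by positivity), ← pow_add]
  have : N - j - k + (k - 1) = N - j - 1 := by omega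
  rw [this]
  exact hb

/-- all blocks of one level -/
theorem step_level {N j k : ℕ} (hk : 1 ≤ k) (hjk : j + k ≤ N) {g : Finset ℕ → ℝ}
    (hg : ∀ x ⊆ range (2 ^ N), g x = 0 ∨ g x = 1) :
    ∑ b ∈ range (2 ^ (N - j - 1)), D1 (range (2 ^ N)) g (sw j b) ≤
      2 * 2 ^ j * ∑ w ∈ range (2 ^ (N - j - k)), D1 (range (2 ^ N)) g (rot (j + k) w) +
        4 * ∑ S ∈ (range (2 ^ N)).powerset, co (1 / 2) (range (2 ^ N)) g S ^ 2 *
          (((range (2 ^ (N - j - 1))).filter (fun b => Bad j k b S)).card : ℝ) := by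
  rw [← Finset.sum_fiberwise_of_maps_to (g := fun b => b / 2 ^ (k - 1))
    (t := range (2 ^ (N - j - k))) (fun b hb => div_mem hk hjk hb)]
  refine (Finset.sum_le_sum fun w _ => stepB (w := w) hk hjk hg).trans ?_
  rw [Finset.sum_add_distrib, ← Finset.mul_sum, ← Finset.mul_sum, Finset.sum_comm]
  refine add_le_add le_rfl (mul_le_mul_of_nonneg_left (Finset.sum_le_sum fun S _ => ?_)
    (by norm_num))
  rw [← Finset.mul_sum]
  refine mul_le_mul_of_nonneg_left (le_of_eq ?_) (sq_nonneg _)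
  rw [Finset.card_eq_sum_card_fiberwise (f := fun b => b / 2 ^ (k - 1))
    (t := range (2 ^ (N - j - k)))
    (s := (range (2 ^ (N - j - 1))).filter (fun b => Bad j k b S))]
  · push_cast
    refine Finset.sum_congr rfl fun w _ => ?_
    congr 2
    ext b
    simp only [Finset.mem_filter]
    tauto
  · intro b hb
    exact div_mem hk hjk (Finset.mem_filter.1 hb).1

/-- the total number of bad blocks over all levels -/
theorem sum_bad {N k a : ℕ} (hk : 1 ≤ k) (hkN : k ≤ N) {S : Finset ℕ}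
    (hS : S ⊆ range (2 ^ N)) :
    ∑ j ∈ Icc a (N - k), ((range (2 ^ (N - j - 1))).filter (fun b => Bad j k b S)).card ≤
      2 * k * nb a S := by
  have h1 : ∑ j ∈ Icc a (N - k),
      (((range (2 ^ (N - j - 1))).filter (fun b => Bad j k b S)).card + 2 * nb (j + k) S) ≤
      ∑ j ∈ Icc a (N - k), 2 * nb j S := by
    refine Finset.sum_le_sum fun j hj => ?_
    rw [Finset.mem_Icc] at hj
    exact bad_count hk (by omega) hS
  rw [Finset.sum_add_distrib, ← Finset.mul_sum, ← Finset.mul_sum] at h1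
  have h2 := nb_telescope a N k S
  have h3 : 2 * k * nb a S = 2 * (k * nb a S) := by ring
  rw [h3]
  omega

/-- the light sets and the total influence -/
theorem sum_nb {N κ : ℕ} (hκ : 1 ≤ κ) (haN : 48 * κ ≤ N) {g : Finset ℕ → ℝ}
    (hg : ∀ x ⊆ range (2 ^ N), g x = 0 ∨ g x = 1) :
    ∑ S ∈ (range (2 ^ N)).powerset, co (1 / 2) (range (2 ^ N)) g S ^ 2 * (nb (48 * κ) S : ℝ) ≤
      1 / (4 * κ) * ∑ i ∈ range (2 ^ N), I1 (range (2 ^ N)) g i +
        (1 / 8) ^ κ * (∑ i ∈ range (2 ^ N), I1 (range (2 ^ N)) g i +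
          2 ^ (48 * κ) * ∑ q ∈ range (2 ^ (N - 48 * κ)),
            D1 (range (2 ^ N)) g (rot (48 * κ) q)) := by
  have hκ0 : (0 : ℝ) < κ := by exact_mod_cast hκ
  set A := range (2 ^ N) with hA
  set a := 48 * κ with ha
  set Bk := range (2 ^ (N - a)) with hBk
  -- the pointwise bound
  have h1 : ∑ S ∈ A.powerset, co (1 / 2) A g S ^ 2 * (nb a S : ℝ) ≤
      ∑ S ∈ A.powerset, co (1 / 2) A g S ^ 2 * ((S.card : ℝ) / κ +
        ((Bk.filter (fun q => 1 ≤ (part a q S).card ∧ (part a q S).card ≤ κ)).card : ℝ)) := by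
    refine Finset.sum_le_sum fun S hS => mul_le_mul_of_nonneg_left ?_ (sq_nonneg _)
    exact nb_le hκ haN (Finset.mem_powerset.1 hS)
  refine h1.trans ?_
  have e1 : ∑ S ∈ A.powerset, co (1 / 2) A g S ^ 2 * ((S.card : ℝ) / κ +
        ((Bk.filter (fun q => 1 ≤ (part a q S).card ∧ (part a q S).card ≤ κ)).card : ℝ)) =
      (1 / κ) * ∑ S ∈ A.powerset, (S.card : ℝ) * co (1 / 2) A g S ^ 2 +
        ∑ S ∈ A.powerset, co (1 / 2) A g S ^ 2 *
        ((Bk.filter (fun q => 1 ≤ (part a q S).card ∧ (part a q S).card ≤ κ)).card : ℝ) := by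
    rw [Finset.mul_sum, ← Finset.sum_add_distrib]
    refine Finset.sum_congr rfl fun S _ => ?_
    ring
  rw [e1]
  refine add_le_add (le_of_eq ?_) ?_
  · rw [sum_card_co (by norm_num) (by norm_num), sg_sq (by norm_num) (by norm_num)]
    have e2 : ∑ i ∈ A, piv (1 / 2) A g i = ∑ i ∈ A, I1 A g i :=
      Finset.sum_congr rfl fun i hi => (I1_eq_piv hg hi).symm
    rw [e2]
    field_simp
    ring
  · have e3 : ∑ S ∈ A.powerset, co (1 / 2) A g S ^ 2 *
        ((Bk.filter (fun q => 1 ≤ (part a q S).card ∧ (part a q S).card ≤ κ)).card : ℝ) =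
        ∑ q ∈ Bk, ∑ S ∈ A.powerset.filter
          (fun S => 1 ≤ (part a q S).card ∧ (part a q S).card ≤ κ), co (1 / 2) A g S ^ 2 := by
      simp_rw [Finset.sum_filter]
      rw [Finset.sum_comm]
      refine Finset.sum_congr rfl fun S _ => ?_
      rw [← Finset.sum_filter, Finset.sum_const, nsmul_eq_mul, mul_comm]
    rw [e3]
    have h2 : ∀ q ∈ Bk, ∑ S ∈ A.powerset.filter
        (fun S => 1 ≤ (part a q S).card ∧ (part a q S).card ≤ κ), co (1 / 2) A g S ^ 2 ≤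
        (1 / 8) ^ κ * (∑ i ∈ part a q A, I1 A g i + 2 ^ a * D1 A g (rot a q)) := by
      intro q hq
      exact light hκ haN (Finset.mem_range.1 hq) hg
    refine (Finset.sum_le_sum h2).trans ?_
    rw [← Finset.mul_sum, Finset.sum_add_distrib, ← Finset.mul_sum]
    refine mul_le_mul_of_nonneg_left (add_le_add (le_of_eq ?_) le_rfl) (by positivity)
    unfold part
    refine Finset.sum_fiberwise_of_maps_to (g := fun i => i / 2 ^ a) ?_ _
    intro i hi
    rw [hA, Finset.mem_range] at hi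
    rw [hBk, Finset.mem_range, Nat.div_lt_iff_lt_mul (by positivity), ← pow_add,
      Nat.sub_add_cancel haN]
    exact hi

theorem main_bool {N k κ : ℕ} (hk : 1 ≤ k) (hκ : 1 ≤ κ) (ha : 48 * κ + k ≤ N)
    {g : Finset ℕ → ℝ} (hg : ∀ x ⊆ range (2 ^ N), g x = 0 ∨ g x = 1) :
    ∑ j ∈ Icc (48 * κ) (N - k), ∑ b ∈ range (2 ^ (N - j - 1)), D1 (range (2 ^ N)) g (sw j b) ≤
      ∑ j ∈ Icc (48 * κ) (N - k), 2 * 2 ^ j *
        ∑ w ∈ range (2 ^ (N - j - k)), D1 (range (2 ^ N)) g (rot (j + k) w) +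
      8 * k * (1 / (4 * κ) * ∑ i ∈ range (2 ^ N), I1 (range (2 ^ N)) g i +
        (1 / 8) ^ κ * (∑ i ∈ range (2 ^ N), I1 (range (2 ^ N)) g i +
          2 ^ (48 * κ) * ∑ q ∈ range (2 ^ (N - 48 * κ)),
            D1 (range (2 ^ N)) g (rot (48 * κ) q))) := by
  have h1 : ∑ j ∈ Icc (48 * κ) (N - k), ∑ b ∈ range (2 ^ (N - j - 1)),
      D1 (range (2 ^ N)) g (sw j b) ≤ ∑ j ∈ Icc (48 * κ) (N - k),
      (2 * 2 ^ j * ∑ w ∈ range (2 ^ (N - j - k)), D1 (range (2 ^ N)) g (rot (j + k) w) +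
        4 * ∑ S ∈ (range (2 ^ N)).powerset, co (1 / 2) (range (2 ^ N)) g S ^ 2 *
          (((range (2 ^ (N - j - 1))).filter (fun b => Bad j k b S)).card : ℝ)) := by
    refine Finset.sum_le_sum fun j hj => ?_
    rw [Finset.mem_Icc] at hj
    exact step_level hk (by omega) hg
  refine h1.trans ?_
  rw [Finset.sum_add_distrib]
  refine add_le_add le_rfl ?_
  rw [← Finset.mul_sum, Finset.sum_comm]
  have h2 : ∑ S ∈ (range (2 ^ N)).powerset, ∑ j ∈ Icc (48 * κ) (N - k),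
      co (1 / 2) (range (2 ^ N)) g S ^ 2 *
          (((range (2 ^ (N - j - 1))).filter (fun b => Bad j k b S)).card : ℝ) ≤
      2 * k * ∑ S ∈ (range (2 ^ N)).powerset,
        co (1 / 2) (range (2 ^ N)) g S ^ 2 * (nb (48 * κ) S : ℝ) := by
    rw [Finset.mul_sum]
    refine Finset.sum_le_sum fun S hS => ?_
    rw [← Finset.mul_sum]
    have h3 := sum_bad (a := 48 * κ) hk (by omega : k ≤ N) (Finset.mem_powerset.1 hS)
    have h4 : ∑ j ∈ Icc (48 * κ) (N - k),
        (((range (2 ^ (N - j - 1))).filter (fun b => Bad j k b S)).card : ℝ) ≤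
        2 * k * (nb (48 * κ) S : ℝ) := by exact_mod_cast h3
    calc _ ≤ co (1 / 2) (range (2 ^ N)) g S ^ 2 * (2 * k * (nb (48 * κ) S : ℝ)) :=
          mul_le_mul_of_nonneg_left h4 (sq_nonneg _)
      _ = _ := by ring
  have h5 := sum_nb hκ (by omega : 48 * κ ≤ N) hg
  have hk0 : (0 : ℝ) ≤ k := Nat.cast_nonneg k
  calc _ ≤ 4 * (2 * k * ∑ S ∈ (range (2 ^ N)).powerset,
        co (1 / 2) (range (2 ^ N)) g S ^ 2 * (nb (48 * κ) S : ℝ)) :=
        mul_le_mul_of_nonneg_left h2 (by norm_num)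
    _ = 8 * k * ∑ S ∈ (range (2 ^ N)).powerset,
        co (1 / 2) (range (2 ^ N)) g S ^ 2 * (nb (48 * κ) S : ℝ) := by ring
    _ ≤ _ := mul_le_mul_of_nonneg_left h5 (by positivity)

end Vale.Agent.P238
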