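import Vale.Agent.P238.MainBool

/-!
# P238: the main inequality for functions with values in `ℓ₁`
-/

namespace Vale.Agent.P238

open Finset

/-- the cut decomposition of the distance on a finite set of reals -/
theorem ml_cut (V : Finset ℝ) :
    ∃ (m : ℕ) (lam : Fin m → ℝ) (c : Fin m → ℝ), (∀ r, 0 ≤ lam r) ∧
      (∀ r, ∃ v ∈ V, c r < v) ∧
      ∀ a ∈ V, ∀ b ∈ V, |a - b| =
        ∑ r, lam r * |(if c r < a then (1 : ℝ) else 0) - (if c r < b then (1 : ℝ) else 0)| := by
  classical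
  induction V using Finset.induction_on_max with
  | empty => exact ⟨0, fun _ => 0, fun _ => 0, fun _ => le_rfl, fun r => r.elim0, fun a ha => by simp at ha⟩
  | insert M V hM ih =>
    obtain ⟨m, lam, c, h1, h2, h3⟩ := ih
    by_cases hV : V.Nonempty
    · set M' := V.max' hV with hM'
      have hM'V : M' ∈ V := Finset.max'_mem V hV
      have hle : ∀ v ∈ V, v ≤ M' := fun v hv => Finset.le_max' V v hv
      have hlt : M' < M := hM M' hM'V
      have hc : ∀ r, c r < M' := by
        intro r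
        obtain ⟨v, hv, hcv⟩ := h2 r
        exact hcv.trans_le (hle v hv)
      refine ⟨m + 1, Fin.cons (M - M') lam, Fin.cons M' c, ?_, ?_, ?_⟩
      · intro r
        refine Fin.cases ?_ (fun r => ?_) r
        · rw [Fin.cons_zero]; linarith
        · rw [Fin.cons_succ]; exact h1 r
      · intro r
        refine Fin.cases ?_ (fun r => ?_) r
        · exact ⟨M, Finset.mem_insert_self _ _, by rw [Fin.cons_zero]; exact hlt⟩
        · obtain ⟨v, hv, hcv⟩ := h2 r
          exact ⟨v, Finset.mem_insert_of_mem hv, by rw [Fin.cons_succ]; exact hcv⟩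
      · -- the case of the new point against an old point
        have key : ∀ b ∈ V, |M - b| = ∑ r : Fin (m + 1), (Fin.cons (M - M') lam : Fin (m + 1) → ℝ) r *
            |(if (Fin.cons M' c : Fin (m + 1) → ℝ) r < M then (1 : ℝ) else 0) -
              (if (Fin.cons M' c : Fin (m + 1) → ℝ) r < b then (1 : ℝ) else 0)| := by
          intro b hb
          rw [Fin.sum_univ_succ]
          simp only [Fin.cons_zero, Fin.cons_succ]
          rw [if_pos hlt, if_neg (not_lt.2 (hle b hb))]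
          have e1 : ∑ r : Fin m, lam r * |(if c r < M then (1 : ℝ) else 0) -
              (if c r < b then (1 : ℝ) else 0)| = |M' - b| := by
            rw [h3 M' hM'V b hb]
            refine Finset.sum_congr rfl (fun r _ => ?_)
            rw [if_pos (hc r), if_pos ((hc r).trans hlt)]
          have hb' := hle b hb
          rw [e1, abs_of_nonneg (show 0 ≤ M' - b by linarith),
            abs_of_nonneg (show 0 ≤ M - b by linarith)]
          norm_num
        intro a ha b hb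
        rw [Finset.mem_insert] at ha hb
        rcases ha with rfl | ha
        · rcases hb with rfl | hb
          · simp
          · exact key b hb
        · rcases hb with rfl | hb
          · rw [abs_sub_comm, key a ha]
            refine Finset.sum_congr rfl (fun r _ => ?_)
            rw [abs_sub_comm]
          · rw [h3 a ha b hb, Fin.sum_univ_succ]
            simp only [Fin.cons_zero, Fin.cons_succ]
            rw [if_neg (not_lt.2 (hle a ha)), if_neg (not_lt.2 (hle b hb))]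
            simp
    · rw [Finset.not_nonempty_iff_eq_empty] at hV
      subst hV
      refine ⟨0, fun _ => 0, fun _ => 0, fun _ => le_rfl, fun r => r.elim0, ?_⟩
      intro a ha b hb
      simp only [insert_empty_eq, Finset.mem_singleton] at ha hb
      rw [ha, hb]
      simp

/-- the cut decomposition of a real function on a finite set -/
theorem cut_decomp {α : Type*} (X : Finset α) (f : α → ℝ) :
    ∃ (m : ℕ) (lam : Fin m → ℝ) (g : Fin m → α → ℝ), (∀ r, 0 ≤ lam r) ∧
      (∀ r x, g r x = 0 ∨ g r x = 1) ∧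
      ∀ x ∈ X, ∀ y ∈ X, |f x - f y| = ∑ r, lam r * |g r x - g r y| := by
  classical
  obtain ⟨m, lam, c, h1, _, h3⟩ := ml_cut (X.image f)
  refine ⟨m, lam, fun r x => if c r < f x then 1 else 0, h1, ?_, ?_⟩
  · intro r x
    by_cases h : c r < f x
    · right; simp only; rw [if_pos h]
    · left; simp only; rw [if_neg h]
  · intro x hx y hy
    exact h3 _ (Finset.mem_image_of_mem f hx) _ (Finset.mem_image_of_mem f hy)

/-- the left side as a functional of the kernel -/
noncomputable def Lf (N k κ : ℕ) (d : Finset ℕ → Finset ℕ → ℝ) : ℝ :=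
  ∑ j ∈ Icc (48 * κ) (N - k), ∑ b ∈ range (2 ^ (N - j - 1)),
    Ex (1 / 2) (range (2 ^ N)) (fun x => d x (x.map (sw j b).toEmbedding))

/-- the right side as a functional of the kernel -/
noncomputable def Rf (N k κ : ℕ) (d : Finset ℕ → Finset ℕ → ℝ) : ℝ :=
  ∑ j ∈ Icc (48 * κ) (N - k), 2 * 2 ^ j * ∑ w ∈ range (2 ^ (N - j - k)),
    Ex (1 / 2) (range (2 ^ N)) (fun x => d x (x.map (rot (j + k) w).toEmbedding)) +
  8 * k * (1 / (4 * κ) * ∑ i ∈ range (2 ^ N),
      Ex (1 / 2) ((range (2 ^ N)).erase i) (fun x => d (insert i x) x) +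
    (1 / 8) ^ κ * (∑ i ∈ range (2 ^ N),
      Ex (1 / 2) ((range (2 ^ N)).erase i) (fun x => d (insert i x) x) +
      2 ^ (48 * κ) * ∑ q ∈ range (2 ^ (N - 48 * κ)),
        Ex (1 / 2) (range (2 ^ N)) (fun x => d x (x.map (rot (48 * κ) q).toEmbedding))))

theorem ml_ex {ι : Type*} {A : Finset ℕ} {d : ι → Finset ℕ → ℝ} {D : Finset ℕ → ℝ}
    (h : ∀ x ⊆ A, HasSum (fun r => d r x) (D x)) :
    HasSum (fun r => Ex (1 / 2) A (d r)) (Ex (1 / 2) A D) := by
  unfold Ex
  exact hasSum_sum (fun x hx => (h x (Finset.mem_powerset.1 hx)).mul_left _)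

theorem ml_map_subset {N : ℕ} {π : Equiv.Perm ℕ}
    (hπ : (range (2 ^ N)).map π.toEmbedding = range (2 ^ N)) {x : Finset ℕ}
    (hx : x ⊆ range (2 ^ N)) : x.map π.toEmbedding ⊆ range (2 ^ N) := by
  rw [← hπ]
  exact Finset.map_subset_map.2 hx

theorem ml_Lf {ι : Type*} {N k κ : ℕ} (hk : 1 ≤ k) (ha : 48 * κ + k ≤ N)
    {d : ι → Finset ℕ → Finset ℕ → ℝ} {D : Finset ℕ → Finset ℕ → ℝ}
    (h : ∀ x ⊆ range (2 ^ N), ∀ y ⊆ range (2 ^ N), HasSum (fun r => d r x y) (D x y)) :
    HasSum (fun r => Lf N k κ (d r)) (Lf N k κ D) := by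
  unfold Lf
  refine hasSum_sum (fun j hj => hasSum_sum (fun b _ => ml_ex (fun x hx => h x hx _ ?_)))
  refine ml_map_subset (map_sw ?_) hx
  have := Finset.mem_Icc.1 hj
  omega

theorem ml_Rf {ι : Type*} {N k κ : ℕ} (ha : 48 * κ + k ≤ N)
    {d : ι → Finset ℕ → Finset ℕ → ℝ} {D : Finset ℕ → Finset ℕ → ℝ}
    (h : ∀ x ⊆ range (2 ^ N), ∀ y ⊆ range (2 ^ N), HasSum (fun r => d r x y) (D x y)) :
    HasSum (fun r => Rf N k κ (d r)) (Rf N k κ D) := by
  unfold Rf
  have hI : HasSum (fun r => ∑ i ∈ range (2 ^ N),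
      Ex (1 / 2) ((range (2 ^ N)).erase i) (fun x => d r (insert i x) x))
      (∑ i ∈ range (2 ^ N),
      Ex (1 / 2) ((range (2 ^ N)).erase i) (fun x => D (insert i x) x)) := by
    refine hasSum_sum (fun i hi => ml_ex (fun x hx => h _ ?_ _ ?_))
    · intro a ha
      rcases Finset.mem_insert.1 ha with rfl | ha
      · exact hi
      · exact Finset.mem_of_mem_erase (hx ha)
    · exact hx.trans (Finset.erase_subset _ _)
  have hR : ∀ m ≤ N, ∀ w : ℕ, HasSum (fun r =>
      Ex (1 / 2) (range (2 ^ N)) (fun x => d r x (x.map (rot m w).toEmbedding)))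
      (Ex (1 / 2) (range (2 ^ N)) (fun x => D x (x.map (rot m w).toEmbedding))) := by
    intro m hm w
    exact ml_ex (fun x hx => h x hx _ (ml_map_subset (map_rot hm) hx))
  refine HasSum.add ?_ (HasSum.mul_left _ (HasSum.add (hI.mul_left _) (HasSum.mul_left _
    (HasSum.add hI (HasSum.mul_left _ ?_)))))
  · refine hasSum_sum (fun j hj => HasSum.mul_left _ (hasSum_sum (fun w _ => hR _ ?_ w)))
    have := Finset.mem_Icc.1 hj
    omega
  · exact hasSum_sum (fun q _ => hR _ (by omega) q)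

theorem ml_Lf_smul (N k κ : ℕ) (c : ℝ) (d : Finset ℕ → Finset ℕ → ℝ) :
    Lf N k κ (fun x y => c * d x y) = c * Lf N k κ d := by
  unfold Lf
  simp only [Ex_smul, ← Finset.mul_sum]

theorem ml_Rf_smul (N k κ : ℕ) (c : ℝ) (d : Finset ℕ → Finset ℕ → ℝ) :
    Rf N k κ (fun x y => c * d x y) = c * Rf N k κ d := by
  unfold Rf
  simp only [Ex_smul, ← Finset.mul_sum, mul_left_comm _ c, ← mul_add]

/-- `main_bool` for real functions -/
theorem main_real {N k κ : ℕ} (hk : 1 ≤ k) (hκ : 1 ≤ κ) (ha : 48 * κ + k ≤ N)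
    (f : Finset ℕ → ℝ) :
    ∑ j ∈ Icc (48 * κ) (N - k), ∑ b ∈ range (2 ^ (N - j - 1)), D1 (range (2 ^ N)) f (sw j b) ≤
      ∑ j ∈ Icc (48 * κ) (N - k), 2 * 2 ^ j *
        ∑ w ∈ range (2 ^ (N - j - k)), D1 (range (2 ^ N)) f (rot (j + k) w) +
      8 * k * (1 / (4 * κ) * ∑ i ∈ range (2 ^ N), I1 (range (2 ^ N)) f i +
        (1 / 8) ^ κ * (∑ i ∈ range (2 ^ N), I1 (range (2 ^ N)) f i +
          2 ^ (48 * κ) * ∑ q ∈ range (2 ^ (N - 48 * κ)),
            D1 (range (2 ^ N)) f (rot (48 * κ) q))) := by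
  obtain ⟨m, lam, g, h1, h2, h3⟩ := cut_decomp (range (2 ^ N)).powerset f
  have hsum : ∀ x ⊆ range (2 ^ N), ∀ y ⊆ range (2 ^ N),
      HasSum (fun r => lam r * |g r x - g r y|) (|f x - f y|) := by
    intro x hx y hy
    rw [h3 x (Finset.mem_powerset.2 hx) y (Finset.mem_powerset.2 hy)]
    exact hasSum_fintype _
  have hL := ml_Lf (κ := κ) hk ha hsum
  have hR := ml_Rf (k := k) (κ := κ) ha hsum
  refine hasSum_le (fun r => ?_) hL hR
  rw [ml_Lf_smul, ml_Rf_smul]
  exact mul_le_mul_of_nonneg_left (main_bool hk hκ ha (fun x _ => h2 r x)) (h1 r)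

/-- `E ‖F x - F (π x)‖` -/
noncomputable def D1v (A : Finset ℕ) (F : Finset ℕ → Ell1) (π : Equiv.Perm ℕ) : ℝ :=
  Ex (1 / 2) A (fun x => ‖F x - F (x.map π.toEmbedding)‖)

/-- `E ‖F x - F (x with bit i flipped)‖` -/
noncomputable def I1v (A : Finset ℕ) (F : Finset ℕ → Ell1) (i : ℕ) : ℝ :=
  Ex (1 / 2) (A.erase i) (fun x => ‖F (insert i x) - F x‖)

/-- the norm of `ℓ₁` -/
theorem ml_norm (u v : Ell1) : HasSum (fun m => |u m - v m|) ‖u - v‖ := by
  have h := lp.hasSum_norm (p := 1) (by simp) (u - v)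
  simpa using h

/-- `main_bool` for functions with values in `ℓ₁` -/
theorem main_l1 {N k κ : ℕ} (hk : 1 ≤ k) (hκ : 1 ≤ κ) (ha : 48 * κ + k ≤ N)
    (F : Finset ℕ → Ell1) :
    ∑ j ∈ Icc (48 * κ) (N - k), ∑ b ∈ range (2 ^ (N - j - 1)), D1v (range (2 ^ N)) F (sw j b) ≤
      ∑ j ∈ Icc (48 * κ) (N - k), 2 * 2 ^ j *
        ∑ w ∈ range (2 ^ (N - j - k)), D1v (range (2 ^ N)) F (rot (j + k) w) +
      8 * k * (1 / (4 * κ) * ∑ i ∈ range (2 ^ N), I1v (range (2 ^ N)) F i +
        (1 / 8) ^ κ * (∑ i ∈ range (2 ^ N), I1v (range (2 ^ N)) F i +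
          2 ^ (48 * κ) * ∑ q ∈ range (2 ^ (N - 48 * κ)),
            D1v (range (2 ^ N)) F (rot (48 * κ) q))) := by
  have hsum : ∀ x ⊆ range (2 ^ N), ∀ y ⊆ range (2 ^ N),
      HasSum (fun m : ℕ => |F x m - F y m|) ‖F x - F y‖ := fun x _ y _ => ml_norm _ _
  have hL := ml_Lf (κ := κ) hk ha hsum
  have hR := ml_Rf (k := k) (κ := κ) ha hsum
  exact hasSum_le (fun r => main_real hk hκ ha (fun x => F x r)) hL hR

end Vale.Agent.P238
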