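import Vale.Agent.P238.Fourier
import Vale.Agent.P238.CountDef

/-!
# P238: swaps inside one large block against the rotation of that block
-/

namespace Vale.Agent.P238

open Finset

/-- the block of length `2^j` of the image under the swap -/
theorem sw_block (j b i : ℕ) : sw j b i / 2 ^ j =
    if i / 2 ^ j / 2 = b then (if i / 2 ^ j % 2 = 0 then i / 2 ^ j + 1 else i / 2 ^ j - 1)
    else i / 2 ^ j := by
  have hp : 0 < 2 ^ j := by positivity
  rw [sw_apply, swf, div_succ_eq]
  by_cases h : i / 2 ^ j / 2 = b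
  · rw [if_pos h, if_pos h]
    by_cases h2 : i / 2 ^ j % 2 = 0
    · rw [if_pos h2, if_pos h2, Nat.add_div_right i hp]
    · rw [if_neg h2, if_neg h2]
      have := Nat.sub_mul_div i (2 ^ j) 1
      simpa using this
  · rw [if_neg h, if_neg h]

theorem sw_sw (j b i : ℕ) : sw j b (sw j b i) = i := swf_swf j b i

theorem map_sw_map_sw (j b : ℕ) (S : Finset ℕ) :
    (S.map (sw j b).toEmbedding).map (sw j b).toEmbedding = S := by
  ext i
  rw [Finset.mem_map_equiv, Finset.mem_map_equiv, sw_symm, sw_sw]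

theorem map_congr_perm {S : Finset ℕ} {π σ : Equiv.Perm ℕ} (h : ∀ i ∈ S, π i = σ i) :
    S.map π.toEmbedding = S.map σ.toEmbedding := by
  ext t
  simp only [Finset.mem_map, Equiv.coe_toEmbedding]
  constructor
  · rintro ⟨i, hi, rfl⟩; exact ⟨i, hi, (h i hi).symm⟩
  · rintro ⟨i, hi, rfl⟩; exact ⟨i, hi, h i hi⟩

theorem sw_of_not_hit {j b : ℕ} {S : Finset ℕ} (h : ∀ i ∈ S, i / 2 ^ (j + 1) ≠ b) :
    S.map (sw j b).toEmbedding = S := by
  have h1 : S.map (sw j b).toEmbedding = S.map (1 : Equiv.Perm ℕ).toEmbedding :=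
    map_congr_perm fun i hi => by rw [sw_of_ne (h i hi)]; rfl
  rw [h1]
  ext i
  rw [Finset.mem_map_equiv]
  rfl

theorem Bad_sw {j k b : ℕ} (hk : 1 ≤ k) {S : Finset ℕ} (h : Bad j k b S) :
    Bad j k b (S.map (sw j b).toEmbedding) := by
  obtain ⟨⟨i, hi, hib⟩, i1, hi1, i2, hi2, h1, h2, h3⟩ := h
  refine ⟨⟨sw j b i, Finset.mem_map_of_mem _ hi, ?_⟩, sw j b i1, Finset.mem_map_of_mem _ hi1,
    sw j b i2, Finset.mem_map_of_mem _ hi2, ?_, ?_, ?_⟩
  · rw [sw_div_succ]; exact hib
  · rw [sw_div (by omega)]; exact h1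
  · rw [sw_div (by omega)]; exact h2
  · intro hcon
    apply h3
    have e1 : sw j b (sw j b i1) / 2 ^ j = sw j b (sw j b i2) / 2 ^ j := by
      rw [sw_block j b (sw j b i1), sw_block j b (sw j b i2), hcon]
    rwa [sw_sw, sw_sw] at e1

theorem Bad_sw_iff {j k b : ℕ} (hk : 1 ≤ k) {S : Finset ℕ} :
    Bad j k b (S.map (sw j b).toEmbedding) ↔ Bad j k b S := by
  constructor
  · intro h
    have := Bad_sw hk h
    rwa [map_sw_map_sw] at this
  · exact Bad_sw hk

/-- all points of `S` in the large block lie in the left half of the block `b` -/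
def Evn (j k w b : ℕ) (S : Finset ℕ) : Prop :=
  (∃ i ∈ S, i / 2 ^ j = 2 * b) ∧ ∀ i ∈ S, i / 2 ^ (j + k) = w → i / 2 ^ j = 2 * b

instance (j k w b : ℕ) (S : Finset ℕ) : Decidable (Evn j k w b S) := by
  unfold Evn; infer_instance

theorem div_big (j k i : ℕ) (hk : 1 ≤ k) : i / 2 ^ (j + k) = i / 2 ^ j / 2 / 2 ^ (k - 1) := by
  obtain ⟨l, rfl⟩ : ∃ l, k = l + 1 := ⟨k - 1, by omega⟩
  rw [pow_add, ← Nat.div_div_eq_div_mul, pow_succ', ← Nat.div_div_eq_div_mul, Nat.add_sub_cancel]

theorem Evn_unique {j k w b b' : ℕ} (hk : 1 ≤ k) (hb : b / 2 ^ (k - 1) = w) {S : Finset ℕ}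
    (h : Evn j k w b S) (h' : Evn j k w b' S) : b = b' := by
  obtain ⟨⟨i, hi, hib⟩, _⟩ := h
  have h1 : i / 2 ^ (j + k) = w := by
    rw [div_big j k i hk, hib, Nat.mul_div_cancel_left _ (by norm_num), hb]
  have h2 := h'.2 i hi h1
  omega

theorem Evn_map {j k w b : ℕ} (hk : 1 ≤ k) (hb : b / 2 ^ (k - 1) = w) {S : Finset ℕ}
    (h : Evn j k w b S) :
    S.map (sw j b).toEmbedding = S.map (rot (j + k) w ^ (2 ^ j)).toEmbedding := by
  refine map_congr_perm fun i hi => ?_
  have hp : 0 < 2 ^ j := by positivity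
  by_cases hw : i / 2 ^ (j + k) = w
  · have h1 := h.2 i hi hw
    have e1 : sw j b i = i + 2 ^ j := by
      rw [sw_apply, swf, div_succ_eq, h1, if_pos (by omega), if_pos (by omega)]
    rw [e1, rot_pow_of_lt hw]
    -- no wrap around
    have h2 : i < (2 * b + 1) * 2 ^ j := by
      rw [← Nat.div_lt_iff_lt_mul hp]; omega
    have h3 : b < (w + 1) * 2 ^ (k - 1) := by
      rw [← Nat.div_lt_iff_lt_mul (by positivity)]; omega
    have h4 : 2 ^ (j + k) = 2 ^ (k - 1) * 2 * 2 ^ j := by
      rw [← pow_succ, ← pow_add]; congr 1; omega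
    have h5 : (b + 1) * (2 * 2 ^ j) ≤ (w + 1) * 2 ^ (k - 1) * (2 * 2 ^ j) :=
      Nat.mul_le_mul_right _ h3
    have h6 : (w + 1) * 2 ^ (k - 1) * (2 * 2 ^ j) = w * 2 ^ (j + k) + 2 ^ (j + k) := by
      rw [h4]; ring
    have h7 : 2 ^ (j + k) * w + i % 2 ^ (j + k) = i := by
      rw [← hw]; exact Nat.div_add_mod i _
    have h8 : w * 2 ^ (j + k) = 2 ^ (j + k) * w := mul_comm _ _
    have h9 : (b + 1) * (2 * 2 ^ j) = (2 * b + 1) * 2 ^ j + 2 ^ j := by ring
    omega
  · rw [rot_pow_of_ne hw, sw_of_ne]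
    intro hcon
    apply hw
    rw [div_big j k i hk, ← div_succ_eq, hcon, hb]

theorem Evn_or {j k w b : ℕ} (hk : 1 ≤ k) (hb : b / 2 ^ (k - 1) = w) {S : Finset ℕ}
    (hit : ∃ i ∈ S, i / 2 ^ (j + 1) = b) (hbad : ¬ Bad j k b S) :
    Evn j k w b S ∨ Evn j k w b (S.map (sw j b).toEmbedding) := by
  obtain ⟨i₀, hi₀, h0⟩ := hit
  rw [div_succ_eq] at h0
  have hW : i₀ / 2 ^ (j + k) = w := by rw [div_big j k _ hk, h0, hb]
  have hall : ∀ i ∈ S, i / 2 ^ (j + k) = w → i / 2 ^ j = i₀ / 2 ^ j := by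
    intro i hi hiw
    by_contra hne
    exact hbad ⟨⟨i₀, hi₀, by rw [div_succ_eq]; exact h0⟩, i, hi, i₀, hi₀, by rw [hiw, hb],
      by rw [hW, hb], hne⟩
  rcases Nat.even_or_odd' (i₀ / 2 ^ j) with ⟨c, hc | hc⟩
  · left
    have hcb : c = b := by omega
    rw [hcb] at hc
    exact ⟨⟨i₀, hi₀, hc⟩, fun i hi hiw => (hall i hi hiw).trans hc⟩
  · right
    have hcb : c = b := by omega
    rw [hcb] at hc
    have hsw : ∀ i, i / 2 ^ j = 2 * b + 1 → sw j b i / 2 ^ j = 2 * b := by
      intro i hi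
      rw [sw_block, hi, if_pos (by omega), if_neg (by omega)]
      omega
    refine ⟨⟨sw j b i₀, Finset.mem_map_of_mem _ hi₀, hsw _ hc⟩, ?_⟩
    intro t ht htw
    rw [Finset.mem_map_equiv, sw_symm] at ht
    have h1 : sw j b t / 2 ^ (j + k) = w := by rw [sw_div (by omega)]; exact htw
    have h2 := (hall _ ht h1).trans hc
    have h3 := hsw _ h2
    rwa [sw_sw] at h3

theorem stepB {N j k w : ℕ} (hk : 1 ≤ k) (hjk : j + k ≤ N) {g : Finset ℕ → ℝ}
    (hg : ∀ x ⊆ range (2 ^ N), g x = 0 ∨ g x = 1) :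
    ∑ b ∈ (range (2 ^ (N - j - 1))).filter (fun b => b / 2 ^ (k - 1) = w),
        D1 (range (2 ^ N)) g (sw j b) ≤
      2 * 2 ^ j * D1 (range (2 ^ N)) g (rot (j + k) w) +
        4 * ∑ S ∈ (range (2 ^ N)).powerset, co (1 / 2) (range (2 ^ N)) g S ^ 2 *
          (((range (2 ^ (N - j - 1))).filter
            (fun b => b / 2 ^ (k - 1) = w ∧ Bad j k b S)).card : ℝ) := by
  set A := range (2 ^ N) with hA
  set c : Finset ℕ → ℝ := co (1 / 2) A g with hc
  set BB := (range (2 ^ (N - j - 1))).filter (fun b => b / 2 ^ (k - 1) = w) with hBB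
  set rL : Equiv.Perm ℕ := rot (j + k) w ^ (2 ^ j) with hrL
  set q : Finset ℕ → ℝ := fun S => (c S - c (S.map rL.toEmbedding)) ^ 2 with hq
  have hrmap : A.map (rot (j + k) w).toEmbedding = A := map_rot hjk
  have hrLmap : A.map rL.toEmbedding = A := by
    rw [hrL]
    induction (2 ^ j) with
    | zero =>
      ext i
      rw [Finset.mem_map_equiv]
      rfl
    | succ n ih =>
      have : A.map (rot (j + k) w ^ (n + 1)).toEmbedding =
          (A.map (rot (j + k) w).toEmbedding).map (rot (j + k) w ^ n).toEmbedding := by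
        ext i
        rw [Finset.mem_map_equiv, Finset.mem_map_equiv, Finset.mem_map_equiv, pow_succ]
        rfl
      rw [this, hrmap, ih]
  -- one block
  have hone : ∀ b ∈ BB, D1 A g (sw j b) ≤
      4 * ∑ S ∈ A.powerset, (if Bad j k b S then c S ^ 2 else 0) +
        2 * ∑ S ∈ A.powerset, (if Evn j k w b S then q S else 0) := by
    intro b hb
    have hbw : b / 2 ^ (k - 1) = w := (Finset.mem_filter.1 hb).2
    have hs : A.map (sw j b).toEmbedding = A := map_sw (by omega)
    rw [D1_eq hg hs]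
    have hterm : ∀ S ∈ A.powerset, (c S - c (S.map (sw j b).toEmbedding)) ^ 2 ≤
        2 * (if Bad j k b S then c S ^ 2 else 0) +
        2 * (if Bad j k b (S.map (sw j b).toEmbedding) then
          c (S.map (sw j b).toEmbedding) ^ 2 else 0) +
        (if Evn j k w b S then q S else 0) +
        (if Evn j k w b (S.map (sw j b).toEmbedding) then q (S.map (sw j b).toEmbedding)
          else 0) := by
      intro S _
      have p1 : 0 ≤ (if Evn j k w b S then q S else 0) := by
        split_ifs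
        · exact sq_nonneg _
        · exact le_rfl
      have p2 : 0 ≤ (if Evn j k w b (S.map (sw j b).toEmbedding) then
          q (S.map (sw j b).toEmbedding) else 0) := by
        split_ifs
        · exact sq_nonneg _
        · exact le_rfl
      by_cases hbad : Bad j k b S
      · rw [if_pos hbad, if_pos (Bad_sw hk hbad)]
        nlinarith [sq_nonneg (c S + c (S.map (sw j b).toEmbedding))]
      · rw [if_neg hbad, if_neg (fun h => hbad ((Bad_sw_iff hk).1 h))]
        by_cases hit : ∃ i ∈ S, i / 2 ^ (j + 1) = b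
        · rcases Evn_or hk hbw hit hbad with he | he
          · rw [if_pos he]
            have : q S = (c S - c (S.map (sw j b).toEmbedding)) ^ 2 := by
              rw [hq]
              simp only
              rw [hrL, ← Evn_map hk hbw he]
            rw [if_pos he] at p1
            linarith
          · rw [if_pos he]
            have : q (S.map (sw j b).toEmbedding) = (c S - c (S.map (sw j b).toEmbedding)) ^ 2 := by
              rw [hq]
              simp only
              rw [hrL, ← Evn_map hk hbw he, map_sw_map_sw]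
              ring
            linarith
        · push Not at hit
          rw [sw_of_not_hit hit, sub_self]
          rw [sw_of_not_hit hit] at p2
          linarith
    refine (Finset.sum_le_sum hterm).trans (le_of_eq ?_)
    rw [Finset.sum_add_distrib, Finset.sum_add_distrib, Finset.sum_add_distrib,
      ← Finset.mul_sum, ← Finset.mul_sum,
      sum_map hs (fun S => if Bad j k b S then c S ^ 2 else 0),
      sum_map hs (fun S => if Evn j k w b S then q S else 0)]
    ring
  refine (Finset.sum_le_sum hone).trans ?_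
  rw [Finset.sum_add_distrib, ← Finset.mul_sum, ← Finset.mul_sum]
  have e1 : ∑ b ∈ BB, ∑ S ∈ A.powerset, (if Bad j k b S then c S ^ 2 else 0) =
      ∑ S ∈ A.powerset, c S ^ 2 * (((range (2 ^ (N - j - 1))).filter
            (fun b => b / 2 ^ (k - 1) = w ∧ Bad j k b S)).card : ℝ) := by
    rw [Finset.sum_comm]
    refine Finset.sum_congr rfl fun S _ => ?_
    rw [← Finset.sum_filter, hBB, Finset.filter_filter, Finset.sum_const, nsmul_eq_mul, mul_comm]
  have e2 : ∑ b ∈ BB, ∑ S ∈ A.powerset, (if Evn j k w b S then q S else 0) ≤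
      ∑ S ∈ A.powerset, q S := by
    rw [Finset.sum_comm]
    refine Finset.sum_le_sum fun S _ => ?_
    rw [← Finset.sum_filter, Finset.sum_const, nsmul_eq_mul]
    have hcard : (BB.filter (fun b => Evn j k w b S)).card ≤ 1 := by
      rw [Finset.card_le_one]
      intro b hb b' hb'
      rw [Finset.mem_filter] at hb hb'
      exact Evn_unique hk (Finset.mem_filter.1 hb.1).2 hb.2 hb'.2
    have hcard' : ((BB.filter (fun b => Evn j k w b S)).card : ℝ) ≤ 1 := by exact_mod_cast hcard
    have : 0 ≤ q S := sq_nonneg _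
    nlinarith
  have e3 : ∑ S ∈ A.powerset, q S ≤ 2 ^ j * D1 A g (rot (j + k) w) := by
    have h1 := D1_eq hg hrLmap
    rw [← h1]
    have h2 := D1_pow g hrmap (2 ^ j)
    push_cast at h2
    exact h2
  rw [e1]
  linarith

end Vale.Agent.P238
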